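import Mathlib.Analysis.SpecificLimits.Basic
import Mathlib.Tactic.LinearCombination

/-! The scale free step: arithmetic. -/

namespace Vale.Agent.P111.SF

open Filter Topology

theorem exists_argmax {h : ℕ → ℝ} {J : ℕ} (hJ : 0 < h J) (hlim : Tendsto h atTop (𝓝 0)) :
    ∃ j₀, ∀ j, h j ≤ h j₀ := by
  have h1 : ∀ᶠ j in atTop, h j < h J := hlim.eventually_lt_const hJ
  obtain ⟨n₀, hn₀⟩ := eventually_atTop.mp h1
  obtain ⟨j₀, -, hj₀⟩ := Finset.exists_max_image (Finset.range (max n₀ J + 1)) h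
    ⟨0, Finset.mem_range.mpr (Nat.succ_pos _)⟩
  refine ⟨j₀, fun j => ?_⟩
  by_cases hj : j ≤ max n₀ J
  · exact hj₀ j (Finset.mem_range.mpr (Nat.lt_succ_of_le hj))
  · push Not at hj
    have h2 : h j < h J := hn₀ j (le_of_lt (lt_of_le_of_lt (le_max_left _ _) hj))
    exact h2.le.trans (hj₀ J (Finset.mem_range.mpr (Nat.lt_succ_of_le (le_max_right _ _))))

/-- The arithmetic of the iteration. -/
theorem arith (C₀ : ℝ) (k₀ : ℕ) (hC₀ : 1 ≤ C₀) : ∃ K : ℕ → ℝ, ∀ (g : ℕ → ℕ) (c : ℝ),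
    g 0 = 0 → (∀ j, (g j : ℝ) ≤ c * 4 ^ j) →
    (∀ j, 1 ≤ j → C₀ * (1 + 2 ^ j) * (1 + g (j - 1)) ≤ g j →
      (g j : ℝ) ^ 2 ≤ C₀ * g (j + k₀)) → ∀ j, (g j : ℝ) ≤ K j := by
  obtain ⟨A₀, hA₀⟩ := pow_unbounded_of_one_lt (8 * C₀) (one_lt_two (α := ℝ))
  obtain ⟨A, hA⟩ : ∃ A : ℕ, A = A₀ + 3 := ⟨_, rfl⟩
  have hA3 : 3 ≤ A := by omega
  have hA8 : 8 * C₀ ≤ 2 ^ A := by
    refine hA₀.le.trans (pow_le_pow_right₀ one_le_two ?_)
    omega
  refine ⟨fun J => 4 * C₀ * 2 ^ (A * J ^ 2 + 2 * (A * k₀ ^ 2)), ?_⟩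
  intro g c hg0 hgc hstep J
  by_contra hcon
  rw [not_le] at hcon
  have hJpos : (0:ℝ) < g J := lt_trans (by positivity) hcon
  have hc0 : 0 ≤ c := by
    have := hgc J
    by_contra hc
    rw [not_le] at hc
    have h4 : (0:ℝ) < 4 ^ J := by positivity
    nlinarith
  set h : ℕ → ℝ := fun j => g j / 2 ^ (A * j ^ 2) with hh
  have hJ : 0 < h J := by rw [hh]; positivity
  have hlim : Tendsto h atTop (𝓝 0) := by
    have h1 : Tendsto (fun j : ℕ => c * (1 / 2 : ℝ) ^ j) atTop (𝓝 0) := by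
      have := (tendsto_pow_atTop_nhds_zero_of_lt_one (by norm_num : (0:ℝ) ≤ 1 / 2)
        (by norm_num : (1 / 2 : ℝ) < 1)).const_mul c
      simpa using this
    refine squeeze_zero (fun j => ?_) (fun j => ?_) h1
    · rw [hh]; positivity
    · rw [hh]
      simp only
      rw [div_le_iff₀ (by positivity)]
      refine (hgc j).trans ?_
      rw [mul_assoc]
      refine mul_le_mul_of_nonneg_left ?_ hc0
      have h2 : (4:ℝ) ^ j * 2 ^ j ≤ 2 ^ (A * j ^ 2) := by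
        have e1 : (4:ℝ) ^ j * 2 ^ j = 2 ^ (3 * j) := by
          rw [← mul_pow, pow_mul]
          norm_num
        rw [e1]
        refine pow_le_pow_right₀ one_le_two ?_
        have e2 : j ≤ j ^ 2 := by
          rcases Nat.eq_zero_or_pos j with h | h
          · rw [h]; norm_num
          · nlinarith
        nlinarith
      rw [one_div, inv_pow, inv_mul_eq_div, le_div_iff₀ (by positivity)]
      exact h2
  obtain ⟨m, hm⟩ := exists_argmax hJ hlim
  -- products instead of quotients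
  have hm' : ∀ j, (g j : ℝ) * 2 ^ (A * m ^ 2) ≤ g m * 2 ^ (A * j ^ 2) := by
    intro j
    have := hm j
    rw [hh] at this
    simp only at this
    rwa [div_le_div_iff₀ (by positivity) (by positivity)] at this
  have hmpos : (0:ℝ) < g m := by
    have := hm' J
    have h1 : (0:ℝ) < (g J : ℝ) * 2 ^ (A * m ^ 2) := by positivity
    have h2 : (0:ℝ) < 2 ^ (A * J ^ 2) := by positivity
    by_contra hc
    rw [not_lt] at hc
    nlinarith
  have hm1 : 1 ≤ m := by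
    rcases Nat.eq_zero_or_pos m with h0 | h0
    · rw [h0, hg0] at hmpos
      simp at hmpos
    · exact h0
  have h8 : ∀ j : ℕ, 1 ≤ j → 2 * (1 + (2:ℝ) ^ j) ≤ 8 ^ j := by
    intro j hj
    have e1 : (8:ℝ) ^ j = 2 ^ j * 4 ^ j := by rw [← mul_pow]; norm_num
    have e2 : (2:ℝ) ≤ 2 ^ j := by
      calc (2:ℝ) = 2 ^ 1 := (pow_one _).symm
        _ ≤ 2 ^ j := pow_le_pow_right₀ one_le_two hj
    have e3 : (4:ℝ) ≤ 4 ^ j := by
      calc (4:ℝ) = 4 ^ 1 := (pow_one _).symm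
        _ ≤ 4 ^ j := pow_le_pow_right₀ (by norm_num) hj
    rw [e1]
    nlinarith
  -- the key comparison with `m - 1`
  have hprev : 2 * (C₀ * (1 + 2 ^ m)) * g (m - 1) ≤ g m := by
    have e1 := hm' (m - 1)
    have e2 : A * m ^ 2 = A * (m - 1) ^ 2 + A * (2 * m - 1) := by
      obtain ⟨m', rfl⟩ := Nat.exists_eq_add_of_le hm1
      have : 1 + m' - 1 = m' := by omega
      rw [this]
      have h2 : 2 * (1 + m') - 1 = 1 + 2 * m' := by omega
      rw [h2]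
      ring
    rw [e2, pow_add, ← mul_assoc, mul_right_comm] at e1
    have e3 : (g (m - 1) : ℝ) * 2 ^ (A * (2 * m - 1)) ≤ g m :=
      le_of_mul_le_mul_right e1 (by positivity)
    refine le_trans ?_ e3
    rw [mul_comm]
    refine mul_le_mul_of_nonneg_left ?_ (Nat.cast_nonneg _)
    calc 2 * (C₀ * (1 + 2 ^ m)) = C₀ * (2 * (1 + 2 ^ m)) := by ring
      _ ≤ C₀ ^ m * 8 ^ m := by
          refine mul_le_mul ?_ (h8 m hm1) (by positivity) (by positivity)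
          calc C₀ = C₀ ^ 1 := (pow_one _).symm
            _ ≤ C₀ ^ m := pow_le_pow_right₀ hC₀ hm1
      _ = (8 * C₀) ^ m := by rw [← mul_pow, mul_comm]
      _ ≤ (2 ^ A) ^ m := pow_le_pow_left₀ (by positivity) hA8 m
      _ = 2 ^ (A * m) := by rw [← pow_mul]
      _ ≤ 2 ^ (A * (2 * m - 1)) := by
          refine pow_le_pow_right₀ one_le_two (Nat.mul_le_mul_left A ?_)
          omega
  -- the bound for `g m`
  have hgm : (g m : ℝ) ≤ 4 * C₀ * 2 ^ (A * m ^ 2 + 2 * (A * k₀ ^ 2)) := by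
    by_cases hcase : 2 * (C₀ * (1 + 2 ^ m)) ≤ (g m : ℝ)
    · have h1 : C₀ * (1 + 2 ^ m) * (1 + g (m - 1)) ≤ g m := by linarith
      have h2 := hstep m hm1 h1
      have h3 := hm' (m + k₀)
      have e1 : A * (m + k₀) ^ 2 = A * m ^ 2 + A * (2 * m * k₀ + k₀ ^ 2) := by ring
      rw [e1, pow_add, ← mul_assoc, mul_right_comm] at h3
      have h4 : (g (m + k₀) : ℝ) ≤ g m * 2 ^ (A * (2 * m * k₀ + k₀ ^ 2)) :=
        le_of_mul_le_mul_right h3 (by positivity)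
      have h5 : (g m : ℝ) * g m ≤ (C₀ * 2 ^ (A * (2 * m * k₀ + k₀ ^ 2))) * g m := by
        calc (g m : ℝ) * g m = (g m : ℝ) ^ 2 := (sq _).symm
          _ ≤ C₀ * g (m + k₀) := h2
          _ ≤ C₀ * (g m * 2 ^ (A * (2 * m * k₀ + k₀ ^ 2))) :=
            mul_le_mul_of_nonneg_left h4 (by linarith)
          _ = _ := by ring
      have h6 : (g m : ℝ) ≤ C₀ * 2 ^ (A * (2 * m * k₀ + k₀ ^ 2)) :=
        le_of_mul_le_mul_right h5 hmpos
      refine h6.trans ?_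
      have e2 : A * (2 * m * k₀ + k₀ ^ 2) ≤ A * m ^ 2 + 2 * (A * k₀ ^ 2) := by
        have : 2 * m * k₀ ≤ m ^ 2 + k₀ ^ 2 := by
          have e3 : (0:ℤ) ≤ ((m:ℤ) - k₀) ^ 2 := sq_nonneg _
          have e4 : ((2 * m * k₀ : ℕ) : ℤ) ≤ ((m ^ 2 + k₀ ^ 2 : ℕ) : ℤ) := by
            push_cast
            nlinarith
          exact_mod_cast e4
        nlinarith
      have e3 : (2:ℝ) ^ (A * (2 * m * k₀ + k₀ ^ 2)) ≤ 2 ^ (A * m ^ 2 + 2 * (A * k₀ ^ 2)) :=
        pow_le_pow_right₀ one_le_two e2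
      calc C₀ * 2 ^ (A * (2 * m * k₀ + k₀ ^ 2)) ≤ C₀ * 2 ^ (A * m ^ 2 + 2 * (A * k₀ ^ 2)) :=
            mul_le_mul_of_nonneg_left e3 (by linarith)
        _ ≤ 4 * C₀ * 2 ^ (A * m ^ 2 + 2 * (A * k₀ ^ 2)) := by
            refine mul_le_mul_of_nonneg_right ?_ (by positivity)
            linarith
    · rw [not_le] at hcase
      have e2 : (2:ℝ) ^ m ≤ 2 ^ (A * m ^ 2 + 2 * (A * k₀ ^ 2)) := by
        refine pow_le_pow_right₀ one_le_two ?_
        have : m ≤ m ^ 2 := by nlinarith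
        nlinarith
      have e3 : (1:ℝ) ≤ 2 ^ (A * m ^ 2 + 2 * (A * k₀ ^ 2)) := one_le_pow₀ one_le_two
      nlinarith
  -- conclusion
  have hfin := hm' J
  have e4 : (g J : ℝ) * 2 ^ (A * m ^ 2) ≤
      (4 * C₀ * 2 ^ (A * J ^ 2 + 2 * (A * k₀ ^ 2))) * 2 ^ (A * m ^ 2) := by
    refine hfin.trans ((mul_le_mul_of_nonneg_right hgm (by positivity)).trans (le_of_eq ?_))
    rw [pow_add, pow_add]
    ring
  exact absurd (le_of_mul_le_mul_right e4 (by positivity)) (not_le.mpr hcon)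

end Vale.Agent.P111.SF
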