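import Vale.Agent.P111.TW.Step

/-!
The scale free step: definitions.
-/

namespace Vale.Agent.P111.SF

open Finset Vale.Agent.P111 Vale.Agent.P111.TK Vale.Agent.P111.TW

/-- The number of Fourier coefficients of `T^* θ` of norm at least `e`. -/
noncomputable def cnt {D : ℕ} {X : Type*} [NormedAddCommGroup X] [NormedSpace ℝ X]
    (T : X →L[ℝ] X) (θ : (Fin D → ℤˣ) → (X →L[ℝ] ℝ)) (e : ℝ) : ℕ :=
  #(Finset.univ.filter fun b : Fin D → ℤˣ => e ≤ ‖TW.fc T θ b‖)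

/-- All bounded functions have at most `n` Fourier coefficients of norm at least `e`. -/
def CB {X : Type*} [NormedAddCommGroup X] [NormedSpace ℝ X] (T : X →L[ℝ] X) (e n : ℝ) : Prop :=
  ∀ (D : ℕ) (θ : (Fin D → ℤˣ) → (X →L[ℝ] ℝ)), (∀ x, ‖θ x‖ ≤ 1) → (cnt T θ e : ℝ) ≤ n

/-- The fibres of a random homomorphism contain generic tuples. -/
def Fibres (M M' : ℕ) (L : ℝ) : Prop :=
  ∀ (D : ℕ) (Λ : Finset (Fin D → ℤˣ)) (Bad : Finset (Fin M' → Fin D → ℤˣ)), L ≤ #Λ →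
    L * #Bad < (#Λ : ℝ) ^ 2 →
    ∃ (i : ℕ) (p : Fin i → Fin D → ℤˣ) (BB : Finset (Fin i → ℤˣ))
      (J : (Fin i → ℤˣ) → Fin M → Fin D → ℤˣ), (#Λ : ℝ) ≤ L * #BB ∧
      ∀ β ∈ BB, (∀ a, J β a ∈ Λ) ∧ (∀ a l, chi (J β a) (p l) = β l) ∧
        (∀ S : Finset (Fin M), S.Nonempty → JT (J β) S ≠ 1) ∧
        ∀ g : Fin M' → Finset (Fin M), Two g → JG (J β) g ∉ Bad

end Vale.Agent.P111.SF
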