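import Vale.Agent.P111.TW.Asm

/-!
Scale free step, block L: the extremality lemma.
-/

set_option linter.unusedSectionVars false

namespace Vale.Agent.P111.SF

open Finset Vale.Agent.P111 Vale.Agent.P111.TK Vale.Agent.P111.TW

section Ext

variable {i : ℕ} {S Y : Type*} [Fintype S] [Nonempty S] [NormedAddCommGroup Y] [NormedSpace ℝ Y]

/-- The Fourier coefficients along the orbits. -/
noncomputable def orb (act : (Fin i → ℤˣ) → S ≃ S) (Θ : S → Y) (β : Fin i → ℤˣ) (y : S) : Y :=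
  avg fun h : Fin i → ℤˣ => sg (chi β h) • Θ (act h y)

theorem avg_orb (act : (Fin i → ℤˣ) → S ≃ S) (Θ : S → Y) (β : Fin i → ℤˣ)
    (U : S → (Y →L[ℝ] ℝ)) (hcov : ∀ h y, U (act h y) = sg (chi β h) • U y) :
    (avg fun y => U y (Θ y)) = avg fun y => U y (orb act Θ β y) := by
  have h1 : ∀ h : Fin i → ℤˣ, (avg fun y => U (act h y) (Θ (act h y))) =
      avg fun y => U y (Θ y) := fun h => avg_comp_equiv (act h) fun y => U y (Θ y)
  have h2 : (avg fun _ : Fin i → ℤˣ => avg fun y => U y (Θ y)) = avg fun y => U y (Θ y) :=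
    avg_const _
  rw [← h2]
  calc (avg fun _ : Fin i → ℤˣ => avg fun y => U y (Θ y))
      = avg fun h : Fin i → ℤˣ => avg fun y => U (act h y) (Θ (act h y)) :=
        avg_congr fun h => (h1 h).symm
    _ = avg fun y => avg fun h : Fin i → ℤˣ => U (act h y) (Θ (act h y)) := avg_comm _
    _ = _ := by
      refine avg_congr fun y => ?_
      rw [orb, clm_avg]
      refine avg_congr fun h => ?_
      rw [hcov, map_smul, _root_.smul_apply]

/-- The extremality lemma. -/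
theorem ext_bound (act : (Fin i → ℤˣ) → S ≃ S) (BB : Finset (Fin i → ℤˣ)) (Θ : S → Y)
    (U : (Fin i → ℤˣ) → S → (Y →L[ℝ] ℝ)) (w : (Fin i → ℤˣ) → S → ℝ) {t B W b N' : ℝ}
    (hB : 0 ≤ B) (ht : 0 ≤ t) (hb0 : 0 ≤ b) (hW : 0 ≤ W)
    (hw0 : ∀ β ∈ BB, ∀ y, 0 ≤ w β y) (hwW : ∀ β ∈ BB, ∀ y, w β y ≤ W)
    (hw1 : ∀ β ∈ BB, avg (w β) ≤ 1)
    (hU : ∀ β ∈ BB, ∀ y, ‖U β y‖ ≤ B * w β y)
    (hcov : ∀ β ∈ BB, ∀ h y, U β (act h y) = sg (chi β h) • U β y)
    (hb : ∀ β y, ‖orb act Θ β y‖ ≤ b)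
    (hN : ∀ y, (#(univ.filter fun β => t ≤ ‖orb act Θ β y‖) : ℝ) ≤ N') :
    ∑ β ∈ BB, |avg fun y => U β y (Θ y)| ≤ B * (t * #BB + N' * (W * b)) := by
  classical
  have h1 : ∀ β ∈ BB, |avg fun y => U β y (Θ y)| ≤
      avg fun y => B * (w β y * t + if t ≤ ‖orb act Θ β y‖ then W * b else 0) := by
    intro β hβ
    rw [avg_orb act Θ β (U β) (hcov β hβ)]
    refine (abs_avg_le _).trans (avg_mono fun y => ?_)
    have h2 : |U β y (orb act Θ β y)| ≤ B * w β y * ‖orb act Θ β y‖ := by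
      rw [← Real.norm_eq_abs]
      exact ((U β y).le_opNorm _).trans (mul_le_mul_of_nonneg_right (hU β hβ y) (norm_nonneg _))
    refine h2.trans ?_
    rw [mul_assoc]
    refine mul_le_mul_of_nonneg_left ?_ hB
    have h3 := hw0 β hβ y
    split_ifs with hc
    · have h4 : w β y * ‖orb act Θ β y‖ ≤ W * b :=
        mul_le_mul (hwW β hβ y) (hb β y) (norm_nonneg _) hW
      have h5 : 0 ≤ w β y * t := mul_nonneg h3 ht
      linarith
    · rw [not_le] at hc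
      have h4 : w β y * ‖orb act Θ β y‖ ≤ w β y * t := mul_le_mul_of_nonneg_left hc.le h3
      linarith
  refine (Finset.sum_le_sum h1).trans ?_
  rw [← avg_sum]
  have h6 : ∀ y, ∑ β ∈ BB, B * (w β y * t + if t ≤ ‖orb act Θ β y‖ then W * b else 0) ≤
      B * (t * (∑ β ∈ BB, w β y) + N' * (W * b)) := by
    intro y
    rw [← Finset.mul_sum]
    refine mul_le_mul_of_nonneg_left ?_ hB
    rw [Finset.sum_add_distrib, ← Finset.sum_mul, mul_comm]
    refine add_le_add le_rfl ?_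
    rw [← Finset.sum_filter, Finset.sum_const, nsmul_eq_mul]
    refine mul_le_mul_of_nonneg_right ?_ (mul_nonneg hW hb0)
    refine le_trans ?_ (hN y)
    exact_mod_cast Finset.card_le_card (Finset.filter_subset_filter _ (Finset.subset_univ _))
  refine (avg_mono h6).trans ?_
  have h7 : (avg fun y => B * (t * (∑ β ∈ BB, w β y) + N' * (W * b))) =
      B * (t * (∑ β ∈ BB, avg (w β)) + N' * (W * b)) := by
    rw [avg_mul_left, avg_add, avg_mul_left, avg_const, avg_sum]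
  rw [h7]
  refine mul_le_mul_of_nonneg_left ?_ hB
  refine add_le_add ?_ le_rfl
  refine mul_le_mul_of_nonneg_left ?_ ht
  calc ∑ β ∈ BB, avg (w β) ≤ ∑ _β ∈ BB, (1:ℝ) := Finset.sum_le_sum hw1
    _ = #BB := by rw [Finset.sum_const, nsmul_eq_mul, mul_one]

/-- Only few characters can violate the bound. -/
theorem ext_card (act : (Fin i → ℤˣ) → S ≃ S) (BB : Finset (Fin i → ℤˣ)) (Θ : S → Y)
    (U : (Fin i → ℤˣ) → S → (Y →L[ℝ] ℝ)) (w : (Fin i → ℤˣ) → S → ℝ) {t B W b N' : ℝ}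
    (hB : 0 < B) (ht : 0 < t) (hb0 : 0 ≤ b) (hW : 0 ≤ W)
    (hw0 : ∀ β ∈ BB, ∀ y, 0 ≤ w β y) (hwW : ∀ β ∈ BB, ∀ y, w β y ≤ W)
    (hw1 : ∀ β ∈ BB, avg (w β) ≤ 1)
    (hU : ∀ β ∈ BB, ∀ y, ‖U β y‖ ≤ B * w β y)
    (hcov : ∀ β ∈ BB, ∀ h y, U β (act h y) = sg (chi β h) • U β y)
    (hb : ∀ β y, ‖orb act Θ β y‖ ≤ b)
    (hN : ∀ y, (#(univ.filter fun β => t ≤ ‖orb act Θ β y‖) : ℝ) ≤ N')
    (hbig : ∀ β ∈ BB, 2 * t * B ≤ |avg fun y => U β y (Θ y)|) :
    t * #BB ≤ N' * (W * b) := by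
  have h1 := ext_bound act BB Θ U w hB.le ht.le hb0 hW hw0 hwW hw1 hU hcov hb hN
  have h2 : (#BB : ℝ) * (2 * t * B) ≤ ∑ β ∈ BB, |avg fun y => U β y (Θ y)| := by
    calc (#BB : ℝ) * (2 * t * B) = ∑ _β ∈ BB, 2 * t * B := by
          rw [Finset.sum_const, nsmul_eq_mul]
      _ ≤ _ := Finset.sum_le_sum hbig
  have h3 : B * (2 * (t * #BB)) ≤ B * (t * #BB + N' * (W * b)) := by
    calc B * (2 * (t * #BB)) = (#BB : ℝ) * (2 * t * B) := by ring
      _ ≤ _ := h2.trans h1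
  have h4 := le_of_mul_le_mul_left h3 hB
  linarith

end Ext

end Vale.Agent.P111.SF
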