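import Vale.Agent.P111.SF.Ext
import Vale.Agent.P111.SF.Defs

/-!
Scale free step, block L: the three instances of the extremality lemma.
-/

set_option linter.unusedSectionVars false

namespace Vale.Agent.P111.SF

open Finset Vale.Agent.P111 Vale.Agent.P111.TK Vale.Agent.P111.TW

section

variable {i D M M' : ℕ}

/-- The point attached to `h`. -/
def ph (p : Fin i → Fin D → ℤˣ) (h : Fin i → ℤˣ) : Fin D → ℤˣ :=
  ∏ l, if h l = -1 then p l else 1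

theorem chi_prod_right {ι : Type*} (J : Fin D → ℤˣ) (T : Finset ι) (x : ι → Fin D → ℤˣ) :
    chi J (∏ l ∈ T, x l) = ∏ l ∈ T, chi J (x l) := by
  classical
  induction T using Finset.induction_on with
  | empty => simp [chi_one_right]
  | insert a s ha ih => rw [Finset.prod_insert ha, Finset.prod_insert ha, chi_mul_right, ih]

theorem chi_ph {p : Fin i → Fin D → ℤˣ} {b : Fin D → ℤˣ} {β : Fin i → ℤˣ}
    (hb : ∀ l, chi b (p l) = β l) (h : Fin i → ℤˣ) : chi b (ph p h) = chi β h := by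
  rw [ph, chi_prod_right, chi_eq]
  refine Finset.prod_congr rfl fun l _ => ?_
  rcases Int.units_eq_one_or (h l) with h1 | h1 <;> rcases Int.units_eq_one_or (β l) with h2 | h2
  · simp [h1, h2, chi_one_right]
  · simp [h1, h2, chi_one_right]
  · simp [h1, h2, hb]
  · simp [h1, h2, hb]

end

section

variable {i : ℕ} {S X : Type*} [Fintype S] [Nonempty S] [NormedAddCommGroup X] [NormedSpace ℝ X]

theorem orb_comp (T : X →L[ℝ] X) (act : (Fin i → ℤˣ) → S ≃ S) (Θ : S → (X →L[ℝ] ℝ))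
    (β : Fin i → ℤˣ) (y : S) :
    orb act (fun y => (Θ y).comp T) β y = fc T (fun h => Θ (act h y)) β := rfl

theorem fc_smul {D : ℕ} (T : X →L[ℝ] X) (c : ℝ) (θ : (Fin D → ℤˣ) → (X →L[ℝ] ℝ))
    (b : Fin D → ℤˣ) : fc T (fun x => c • θ x) b = c • fc T θ b := by
  rw [fc, fc, ← avg_smul]
  refine avg_congr fun x => ?_
  rw [ContinuousLinearMap.smul_comp, smul_comm]

theorem norm_fc_le {D : ℕ} {T : X →L[ℝ] X} {C b : ℝ} (hT : ‖T‖ ≤ C)
    (θ : (Fin D → ℤˣ) → (X →L[ℝ] ℝ)) (hθ : ∀ x, ‖θ x‖ ≤ b) (β : Fin D → ℤˣ) :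
    ‖fc T θ β‖ ≤ b * C := by
  have hb : 0 ≤ b := (norm_nonneg _).trans (hθ 1)
  refine norm_avg_le' _ _ fun x => ?_
  rw [norm_smul, Real.norm_eq_abs, abs_sg, one_mul]
  exact (ContinuousLinearMap.opNorm_comp_le _ _).trans
    (mul_le_mul (hθ x) hT (norm_nonneg _) hb)

/-- The extremality lemma in terms of `CB`. -/
theorem ext_CB {T : X →L[ℝ] X} {C R n₁ B B₂ W : ℝ} (hT : ‖T‖ ≤ C) (hR : 0 < R)
    (hCB : CB T (2 / R) n₁) (act : (Fin i → ℤˣ) → S ≃ S) (BB : Finset (Fin i → ℤˣ))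
    (Θ : S → (X →L[ℝ] ℝ)) (hB₂ : 0 < B₂) (hΘ : ∀ y, ‖Θ y‖ ≤ B₂)
    (U : (Fin i → ℤˣ) → S → ((X →L[ℝ] ℝ) →L[ℝ] ℝ)) (w : (Fin i → ℤˣ) → S → ℝ)
    (hB : 0 < B) (hW : 0 ≤ W)
    (hw0 : ∀ β ∈ BB, ∀ y, 0 ≤ w β y) (hwW : ∀ β ∈ BB, ∀ y, w β y ≤ W)
    (hw1 : ∀ β ∈ BB, avg (w β) ≤ 1)
    (hU : ∀ β ∈ BB, ∀ y, ‖U β y‖ ≤ B * w β y)
    (hcov : ∀ β ∈ BB, ∀ h y, U β (act h y) = sg (chi β h) • U β y)
    (hbig : ∀ β ∈ BB, 4 * (B * B₂) / R ≤ |avg fun y => U β y ((Θ y).comp T)|) :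
    (#BB : ℝ) ≤ R / 2 * (W * (C * n₁)) := by
  have hC : 0 ≤ C := (norm_nonneg _).trans hT
  have h1 := ext_card act BB (fun y => (Θ y).comp T) U w (t := 2 / R * B₂) (B := B) (W := W)
    (b := B₂ * C) (N' := n₁) hB (by positivity) (by positivity) hW hw0 hwW hw1 hU hcov
    (fun β y => by
      rw [orb_comp]
      exact norm_fc_le hT _ (fun h => hΘ _) β)
    (fun y => by
      have h2 := hCB i (fun h => B₂⁻¹ • Θ (act h y)) (fun h => by
        rw [norm_smul, norm_inv, Real.norm_of_nonneg hB₂.le, inv_mul_le_iff₀ hB₂, mul_one]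
        exact hΘ _)
      refine le_trans ?_ h2
      rw [cnt]
      have h3 : (univ.filter fun β => 2 / R * B₂ ≤ ‖orb act (fun y => (Θ y).comp T) β y‖) ⊆
          univ.filter fun β : Fin i → ℤˣ => 2 / R ≤ ‖fc T (fun h => B₂⁻¹ • Θ (act h y)) β‖ := by
        intro β hβ
        rw [Finset.mem_filter] at hβ ⊢
        refine ⟨hβ.1, ?_⟩
        rw [fc_smul, norm_smul, norm_inv, Real.norm_of_nonneg hB₂.le, ← orb_comp,
          inv_mul_eq_div, le_div_iff₀ hB₂]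
        exact hβ.2
      exact_mod_cast Finset.card_le_card h3)
    (fun β hβ => by
      refine le_trans (le_of_eq ?_) (hbig β hβ)
      ring)
  have h4 : 2 / R * B₂ * (#BB : ℝ) ≤ 2 / R * B₂ * (R / 2 * (W * (C * n₁))) := by
    refine h1.trans (le_of_eq ?_)
    field_simp
  exact le_of_mul_le_mul_left h4 (by positivity)

end

section

variable {i D M M' : ℕ} {X : Type*} [NormedAddCommGroup X] [NormedSpace ℝ X]

/-- Resummation. -/
theorem resum_eq {Y : Type*} [NormedAddCommGroup Y] [NormedSpace ℝ Y] {Ω : Type*} [Fintype Ω]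
    (Z : (Fin M → ℤˣ) → (Y →L[ℝ] ℝ)) (s : Ω → Fin M → ℤˣ) (y : Ω → Y) (ω : Fin M → ℤˣ) :
    ∑ T, (wc T Z) (avg fun x => walsh T (s x) • y x) * walsh T ω =
      avg fun x => Z (ω * s x) (y x) := by
  have h2 : ∀ T : Finset (Fin M), (wc T Z) (avg fun x => walsh T (s x) • y x) * walsh T ω =
      avg fun x => (walsh T (ω * s x) • wc T Z) (y x) := by
    intro T
    rw [clm_avg, ← avg_mul_right]
    refine avg_congr fun x => ?_
    rw [map_smul, smul_eq_mul, _root_.smul_apply, smul_eq_mul, walsh_mul]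
    ring
  rw [Finset.sum_congr rfl fun T _ => h2 T, ← avg_sum]
  refine avg_congr fun x => ?_
  rw [← _root_.sum_apply, sum_walsh_smul_wc]

theorem odd_sg {Y : Type*} [NormedAddCommGroup Y] [NormedSpace ℝ Y]
    {Z : (Fin M → ℤˣ) → (Y →L[ℝ] ℝ)} (hZ : ∀ ε, Z (-ε) = - Z ε) (u : ℤˣ) (ε : Fin M → ℤˣ) :
    Z (fun a => ε a * u) = sg u • Z ε := by
  rcases Int.units_eq_one_or u with rfl | rfl
  · have : (fun a => ε a * (1 : ℤˣ)) = ε := by
      funext a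
      rw [mul_one]
    rw [this, sg_one, one_smul]
  · have : (fun a => ε a * (-1 : ℤˣ)) = -ε := by
      funext a
      simp
    rw [this, hZ, sg_neg_one]
    exact (neg_one_smul ℝ (Z ε)).symm

/-- First instance: the function `θ` itself. -/
theorem ext1 {T : X →L[ℝ] X} {C R n₁ B₁ : ℝ} (hT : ‖T‖ ≤ C) (hR : 0 < R)
    (hCB : CB T (2 / R) n₁) {θ : (Fin D → ℤˣ) → (X →L[ℝ] ℝ)} (hθ : ∀ x, ‖θ x‖ ≤ 1)
    {p : Fin i → Fin D → ℤˣ} {BB : Finset (Fin i → ℤˣ)}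
    {J : (Fin i → ℤˣ) → Fin M → Fin D → ℤˣ} (hJp : ∀ β ∈ BB, ∀ a l, chi (J β a) (p l) = β l)
    (hB₁ : 0 < B₁) {Z : (Fin i → ℤˣ) → (Fin M → ℤˣ) → ((X →L[ℝ] ℝ) →L[ℝ] ℝ)}
    (hZ : ∀ β ε, ‖Z β ε‖ ≤ B₁) (hZo : ∀ β ε, Z β (-ε) = - Z β ε) :
    (#(BB.filter fun β => ∃ ω : Fin M → ℤˣ, 4 * B₁ / R <
      |∑ S, cc (J β) (Z β) (fun x => (θ x).comp T) S * walsh S ω|) : ℝ) ≤ R / 2 * (C * n₁) := by
  classical
  set BB' := BB.filter fun β => ∃ ω : Fin M → ℤˣ, 4 * B₁ / R <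
      |∑ S, cc (J β) (Z β) (fun x => (θ x).comp T) S * walsh S ω| with hBB'
  have hex : ∀ β : Fin i → ℤˣ, ∃ ω : Fin M → ℤˣ, β ∈ BB' → 4 * B₁ / R <
      |∑ S, cc (J β) (Z β) (fun x => (θ x).comp T) S * walsh S ω| := by
    intro β
    by_cases h : β ∈ BB'
    · obtain ⟨ω, hω⟩ := (Finset.mem_filter.mp h).2
      exact ⟨ω, fun _ => hω⟩
    · exact ⟨1, fun h' => absurd h' h⟩
  choose om hom using hex
  have hmem : ∀ β ∈ BB', β ∈ BB := fun β hβ => (Finset.mem_filter.mp hβ).1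
  have h1 := ext_CB (S := Fin D → ℤˣ) (B := B₁) (B₂ := 1) (W := 1) hT hR hCB
    (fun h => Equiv.mulRight (ph p h)) BB' θ one_pos hθ
    (fun β x => Z β (om β * fun a => chi (J β a) x)) (fun _ _ => 1) hB₁ zero_le_one
    (fun _ _ _ => zero_le_one) (fun _ _ _ => le_rfl) (fun _ _ => (avg_const (1:ℝ)).le)
    (fun β _ x => by rw [mul_one]; exact hZ β _)
    (fun β hβ h x => by
      rw [← odd_sg (hZo β)]
      congr 1
      funext a
      simp only [Equiv.coe_mulRight, Pi.mul_apply]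
      rw [chi_mul_right, chi_ph (hJp β (hmem β hβ) a), mul_assoc])
    (fun β hβ => by
      have h2 := (hom β hβ).le
      have h3 : ∑ S, cc (J β) (Z β) (fun x => (θ x).comp T) S * walsh S (om β) =
          avg fun x : Fin D → ℤˣ => Z β (om β * fun a => chi (J β a) x) ((θ x).comp T) :=
        resum_eq (Z β) (fun (x : Fin D → ℤˣ) a => chi (J β a) x) _ (om β)
      rw [h3] at h2
      rw [mul_one]
      exact h2)
  rw [one_mul] at h1
  exact h1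

/-- Second instance: the Walsh coefficients of the lifts. -/
theorem ext2 {T : X →L[ℝ] X} {C R n₁ B₁ B₂ : ℝ} (hT : ‖T‖ ≤ C) (hR : 0 < R)
    (hCB : CB T (2 / R) n₁)
    {ν : (Fin M' → Fin D → ℤˣ) → (Fin M' → ℤˣ) → (X →L[ℝ] ℝ)} (hB₂ : 0 < B₂)
    (hν : ∀ x δ, ‖ν x δ‖ ≤ B₂)
    {p : Fin i → Fin D → ℤˣ} {BB : Finset (Fin i → ℤˣ)}
    {J : (Fin i → ℤˣ) → Fin M → Fin D → ℤˣ} (hJp : ∀ β ∈ BB, ∀ a l, chi (J β a) (p l) = β l)
    (hB₁ : 0 < B₁) {Z : (Fin i → ℤˣ) → (Fin M → ℤˣ) → ((X →L[ℝ] ℝ) →L[ℝ] ℝ)}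
    (hZ : ∀ β ε, ‖Z β ε‖ ≤ B₁) (hZo : ∀ β ε, Z β (-ε) = - Z β ε)
    (U : Finset (Fin M')) (hU : Odd #U) :
    (#(BB.filter fun β => ∃ ω : Fin M → ℤˣ, 4 * (B₁ * B₂) / R <
      |∑ S, kap (J β) (Z β) (fun x δ => (ν x δ).comp T) S U * walsh S ω|) : ℝ) ≤
      R / 2 * (C * n₁) := by
  classical
  set BB' := BB.filter fun β => ∃ ω : Fin M → ℤˣ, 4 * (B₁ * B₂) / R <
      |∑ S, kap (J β) (Z β) (fun x δ => (ν x δ).comp T) S U * walsh S ω| with hBB'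
  have hex : ∀ β : Fin i → ℤˣ, ∃ ω : Fin M → ℤˣ, β ∈ BB' → 4 * (B₁ * B₂) / R <
      |∑ S, kap (J β) (Z β) (fun x δ => (ν x δ).comp T) S U * walsh S ω| := by
    intro β
    by_cases h : β ∈ BB'
    · obtain ⟨ω, hω⟩ := (Finset.mem_filter.mp h).2
      exact ⟨ω, fun _ => hω⟩
    · exact ⟨1, fun h' => absurd h' h⟩
  choose om hom using hex
  have hmem : ∀ β ∈ BB', β ∈ BB := fun β hβ => (Finset.mem_filter.mp hβ).1
  have h1 := ext_CB (S := Fin M' → Fin D → ℤˣ) (B := B₁) (B₂ := B₂) (W := 1) hT hR hCB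
    (fun h => Equiv.mulRight (fun _ => ph p h)) BB' (fun x => wc U (ν x)) hB₂
    (fun x => norm_wc_le U (ν x) (hν x))
    (fun β x => Z β (om β * fun a => ∏ k ∈ U, chi (J β a) (x k))) (fun _ _ => 1) hB₁ zero_le_one
    (fun _ _ _ => zero_le_one) (fun _ _ _ => le_rfl) (fun _ _ => (avg_const (1:ℝ)).le)
    (fun β _ x => by rw [mul_one]; exact hZ β _)
    (fun β hβ h x => by
      rw [← odd_sg (hZo β)]
      congr 1
      funext a
      simp only [Equiv.coe_mulRight, Pi.mul_apply]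
      have h4 : ∀ k ∈ U, chi (J β a) (x k * ph p h) = chi (J β a) (x k) * chi β h := by
        intro k _
        rw [chi_mul_right, chi_ph (hJp β (hmem β hβ) a)]
      rw [Finset.prod_congr rfl h4, Finset.prod_mul_distrib, Finset.prod_const, mul_assoc]
      congr 2
      obtain ⟨m, hm⟩ := hU
      rw [hm, pow_succ, pow_mul, sq, Int.units_mul_self, one_pow, one_mul])
    (fun β hβ => by
      have h2 := (hom β hβ).le
      have h5 : ∀ S : Finset (Fin M), kap (J β) (Z β) (fun x δ => (ν x δ).comp T) S U =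
          (wc S (Z β)) (avg fun x : Fin M' → Fin D → ℤˣ =>
            walsh S (fun a => ∏ k ∈ U, chi (J β a) (x k)) • (wc U (ν x)).comp T) := by
        intro S
        rw [kap, nh]
        congr 1
        refine avg_congr fun x => ?_
        rw [Chi_bic, wc_comp]
      have h3 : ∑ S, kap (J β) (Z β) (fun x δ => (ν x δ).comp T) S U * walsh S (om β) =
          avg fun x : Fin M' → Fin D → ℤˣ =>
            Z β (om β * fun a => ∏ k ∈ U, chi (J β a) (x k)) ((wc U (ν x)).comp T) := by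
        rw [Finset.sum_congr rfl fun S _ => by rw [h5 S]]
        exact resum_eq (Z β)
          (fun (x : Fin M' → Fin D → ℤˣ) a => ∏ k ∈ U, chi (J β a) (x k)) _ (om β)
      rw [h3] at h2
      exact h2)
  rw [one_mul] at h1
  exact h1

theorem WW_le (J : Fin M → Fin D → ℤˣ) (x : Fin M' → Fin D → ℤˣ) (A : Fin M → Fin M' → ℤˣ) :
    WW J x A ≤ (2 ^ M) ^ M' := by
  unfold WW
  have h1 : ∀ a k, 0 ≤ 1 + sg (A a k) * sg (chi (J a) (x k)) ∧
      1 + sg (A a k) * sg (chi (J a) (x k)) ≤ 2 := by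
    intro a k
    have := abs_le.mp (abs_sg (A a k * chi (J a) (x k))).le
    rw [sg_mul] at this
    constructor <;> linarith [this.1, this.2]
  calc ∏ a, ∏ k, (1 + sg (A a k) * sg (chi (J a) (x k)))
      ≤ ∏ _a : Fin M, (2:ℝ) ^ M' := by
        refine Finset.prod_le_prod (fun a _ => Finset.prod_nonneg fun k _ => (h1 a k).1)
          fun a _ => ?_
        calc ∏ k, (1 + sg (A a k) * sg (chi (J a) (x k))) ≤ ∏ _k : Fin M', (2:ℝ) :=
              Finset.prod_le_prod (fun k _ => (h1 a k).1) fun k _ => (h1 a k).2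
          _ = 2 ^ M' := by simp
    _ = (2 ^ M) ^ M' := by
        simp [← pow_mul, mul_comm]

theorem WW_cov {J : Fin M → Fin D → ℤˣ} {q : Fin D → ℤˣ} {u : ℤˣ} (hu : ∀ a, chi (J a) q = u)
    (x : Fin M' → Fin D → ℤˣ) (A : Fin M → Fin M' → ℤˣ) (ε : Fin M → ℤˣ) (δ : Fin M' → ℤˣ) :
    WW J (x * fun _ => q) (fun a k => A a k * (ε a * u) * δ k) =
      WW J x (fun a k => A a k * ε a * δ k) := by
  unfold WW
  refine Finset.prod_congr rfl fun a _ => Finset.prod_congr rfl fun k _ => ?_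
  rw [← sg_mul, ← sg_mul, Pi.mul_apply, chi_mul_right, hu]
  congr 2
  have : u * u = 1 := Int.units_mul_self u
  calc A a k * (ε a * u) * δ k * (chi (J a) (x k) * u)
      = A a k * ε a * δ k * chi (J a) (x k) * (u * u) := by
        simp only [mul_assoc, mul_comm, mul_left_comm]
    _ = _ := by rw [this, mul_one]

end

section

variable {D M M' : ℕ} {Y : Type*} [NormedAddCommGroup Y] [NormedSpace ℝ Y]

/-- The averaged lift. -/
noncomputable def UU (J : Fin M → Fin D → ℤˣ) (Z : (Fin M → ℤˣ) → (Y →L[ℝ] ℝ))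
    (A : Fin M → Fin M' → ℤˣ) (y : (Fin M' → Fin D → ℤˣ) × (Fin M' → ℤˣ)) :
    Y →L[ℝ] ℝ :=
  avg fun ε : Fin M → ℤˣ => WW J y.1 (fun a k => A a k * ε a * y.2 k) • Z ε

/-- The averaged weight. -/
noncomputable def uw (J : Fin M → Fin D → ℤˣ) (A : Fin M → Fin M' → ℤˣ)
    (y : (Fin M' → Fin D → ℤˣ) × (Fin M' → ℤˣ)) : ℝ :=
  avg fun ε : Fin M → ℤˣ => WW J y.1 (fun a k => A a k * ε a * y.2 k)

theorem uw_nonneg (J : Fin M → Fin D → ℤˣ) (A : Fin M → Fin M' → ℤˣ)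
    (y : (Fin M' → Fin D → ℤˣ) × (Fin M' → ℤˣ)) : 0 ≤ uw J A y :=
  avg_nonneg fun _ => WW_nonneg _ _ _

theorem uw_le (J : Fin M → Fin D → ℤˣ) (A : Fin M → Fin M' → ℤˣ)
    (y : (Fin M' → Fin D → ℤˣ) × (Fin M' → ℤˣ)) : uw J A y ≤ (2 ^ M) ^ M' :=
  (avg_mono fun _ => WW_le _ _ _).trans (avg_const _).le

theorem avg_uw {J : Fin M → Fin D → ℤˣ} (hJ : ∀ T : Finset (Fin M), T.Nonempty → JT J T ≠ 1)
    (A : Fin M → Fin M' → ℤˣ) : avg (uw J A) = 1 := by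
  have h0 : avg (uw J A) = avg fun y : (Fin M' → Fin D → ℤˣ) × (Fin M' → ℤˣ) =>
      avg fun ε : Fin M → ℤˣ => WW J y.1 (fun a k => A a k * ε a * y.2 k) := rfl
  rw [h0, avg_comm]
  have h2 : ∀ ε : Fin M → ℤˣ, (avg fun y : (Fin M' → Fin D → ℤˣ) × (Fin M' → ℤˣ) =>
      WW J y.1 (fun a k => A a k * ε a * y.2 k)) = 1 := by
    intro ε
    rw [avg_prod, avg_comm]
    have h3 : ∀ δ : Fin M' → ℤˣ, (avg fun x : Fin M' → Fin D → ℤˣ =>
        WW J (x, δ).1 (fun a k => A a k * ε a * (x, δ).2 k)) = 1 := fun δ =>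
      avg_WW hJ (fun a k => A a k * ε a * δ k)
    rw [avg_congr h3]
    exact avg_const _
  rw [avg_congr h2]
  exact avg_const _

theorem norm_UU_le {J : Fin M → Fin D → ℤˣ} {Z : (Fin M → ℤˣ) → (Y →L[ℝ] ℝ)}
    {B₁ : ℝ} (hZ : ∀ ε, ‖Z ε‖ ≤ B₁) (A : Fin M → Fin M' → ℤˣ)
    (y : (Fin M' → Fin D → ℤˣ) × (Fin M' → ℤˣ)) : ‖UU J Z A y‖ ≤ B₁ * uw J A y := by
  have h0 : ∀ f : (Fin M → ℤˣ) → (Y →L[ℝ] ℝ), ‖avg f‖ ≤ avg fun ω => ‖f ω‖ :=
    fun f => H1.norm_avg_le f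
  rw [UU, uw]
  refine (h0 _).trans ?_
  rw [← avg_mul_left]
  refine avg_mono fun ε => ?_
  rw [norm_smul, Real.norm_of_nonneg (WW_nonneg _ _ _), mul_comm]
  exact mul_le_mul_of_nonneg_right (hZ ε) (WW_nonneg _ _ _)

theorem UU_cov {J : Fin M → Fin D → ℤˣ} {Z : (Fin M → ℤˣ) → (Y →L[ℝ] ℝ)}
    (hZo : ∀ ε, Z (-ε) = - Z ε) {q : Fin D → ℤˣ} {u : ℤˣ} (hu : ∀ a, chi (J a) q = u)
    (A : Fin M → Fin M' → ℤˣ) (x : Fin M' → Fin D → ℤˣ) (δ : Fin M' → ℤˣ) :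
    UU J Z A (x * fun _ => q, δ) = sg u • UU J Z A (x, δ) := by
  have h4 := avg_comp_equiv (Equiv.mulRight (fun _ : Fin M => u))
    (fun ε : Fin M → ℤˣ => WW J (x * fun _ => q) (fun a k => A a k * ε a * δ k) • Z ε)
  rw [UU, UU, ← avg_smul, ← h4]
  refine avg_congr fun ε => ?_
  have h6 := WW_cov hu x A ε δ
  have h7 := odd_sg hZo u ε
  have h8 : (Equiv.mulRight (fun _ : Fin M => u)) ε = fun a => ε a * u := rfl
  rw [h8, h6, h7, smul_comm]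

theorem avg_UU (J : Fin M → Fin D → ℤˣ) (Z : (Fin M → ℤˣ) → (Y →L[ℝ] ℝ))
    (A : Fin M → Fin M' → ℤˣ) (ν : (Fin M' → Fin D → ℤˣ) → (Fin M' → ℤˣ) → Y) :
    (avg fun y : (Fin M' → Fin D → ℤˣ) × (Fin M' → ℤˣ) => UU J Z A y (ν y.1 y.2)) =
      beta J Z ν A := by
  have h9 : (avg fun y : (Fin M' → Fin D → ℤˣ) × (Fin M' → ℤˣ) => UU J Z A y (ν y.1 y.2)) =
      avg fun y : (Fin M' → Fin D → ℤˣ) × (Fin M' → ℤˣ) => avg fun ε : Fin M → ℤˣ =>
        WW J y.1 (fun a k => A a k * ε a * y.2 k) * Z ε (ν y.1 y.2) := by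
    refine avg_congr fun y => ?_
    rw [UU, avg_apply']
    refine avg_congr fun ε => ?_
    rw [_root_.smul_apply, smul_eq_mul]
  rw [h9, avg_comm, beta]
  refine avg_congr fun ε => ?_
  rw [avg_prod, avg_comm]

end

section

variable {i D M M' : ℕ} {X : Type*} [NormedAddCommGroup X] [NormedSpace ℝ X]

/-- Third instance: the pairing. -/
theorem ext3 {T : X →L[ℝ] X} {C R n₁ B₁ B₂ : ℝ} (hT : ‖T‖ ≤ C) (hR : 0 < R)
    (hCB : CB T (2 / R) n₁)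
    {ν : (Fin M' → Fin D → ℤˣ) → (Fin M' → ℤˣ) → (X →L[ℝ] ℝ)} (hB₂ : 0 < B₂)
    (hν : ∀ x δ, ‖ν x δ‖ ≤ B₂)
    {p : Fin i → Fin D → ℤˣ} {BB : Finset (Fin i → ℤˣ)}
    {J : (Fin i → ℤˣ) → Fin M → Fin D → ℤˣ} (hJp : ∀ β ∈ BB, ∀ a l, chi (J β a) (p l) = β l)
    (hJ : ∀ β ∈ BB, ∀ S : Finset (Fin M), S.Nonempty → JT (J β) S ≠ 1)
    (hB₁ : 0 < B₁) {Z : (Fin i → ℤˣ) → (Fin M → ℤˣ) → ((X →L[ℝ] ℝ) →L[ℝ] ℝ)}
    (hZ : ∀ β ε, ‖Z β ε‖ ≤ B₁) (hZo : ∀ β ε, Z β (-ε) = - Z β ε) :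
    (#(BB.filter fun β => ∃ A : Fin M → Fin M' → ℤˣ, 4 * (B₁ * B₂) / R <
      |beta (J β) (Z β) (fun x δ => (ν x δ).comp T) A|) : ℝ) ≤
      R / 2 * ((2 ^ M) ^ M' * (C * n₁)) := by
  classical
  set BB' := BB.filter fun β => ∃ A : Fin M → Fin M' → ℤˣ, 4 * (B₁ * B₂) / R <
      |beta (J β) (Z β) (fun x δ => (ν x δ).comp T) A| with hBB'
  have hex : ∀ β : Fin i → ℤˣ, ∃ A : Fin M → Fin M' → ℤˣ, β ∈ BB' → 4 * (B₁ * B₂) / R <
      |beta (J β) (Z β) (fun x δ => (ν x δ).comp T) A| := by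
    intro β
    by_cases h : β ∈ BB'
    · obtain ⟨ω, hω⟩ := (Finset.mem_filter.mp h).2
      exact ⟨ω, fun _ => hω⟩
    · exact ⟨1, fun h' => absurd h' h⟩
  choose A hA using hex
  have hmem : ∀ β ∈ BB', β ∈ BB := fun β hβ => (Finset.mem_filter.mp hβ).1
  exact ext_CB (S := (Fin M' → Fin D → ℤˣ) × (Fin M' → ℤˣ)) (B := B₁) (B₂ := B₂)
    (W := (2 ^ M) ^ M') hT hR hCB
    (fun h => Equiv.prodCongr (Equiv.mulRight (fun _ => ph p h)) (Equiv.refl _)) BB'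
    (fun y => ν y.1 y.2) hB₂ (fun y => hν _ _)
    (fun β y => UU (J β) (Z β) (A β) y) (fun β y => uw (J β) (A β) y)
    hB₁ (by positivity)
    (fun β _ y => uw_nonneg _ _ y) (fun β _ y => uw_le _ _ y)
    (fun β hβ => (avg_uw (hJ β (hmem β hβ)) (A β)).le)
    (fun β _ y => norm_UU_le (hZ β) (A β) y)
    (fun β hβ h y => UU_cov (hZo β) (fun a => chi_ph (hJp β (hmem β hβ) a) h) (A β) y.1 y.2)
    (fun β hβ => by
      have h1 := avg_UU (J β) (Z β) (A β) (fun x δ => (ν x δ).comp T)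
      rw [h1]
      exact (hA β hβ).le)

end

end Vale.Agent.P111.SF
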