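import Vale.Agent.P111.TW.Generic
import Vale.Agent.P111.SF.Defs

/-!
Fibres of a large set of characters under evaluation at random points.
-/

set_option linter.all false

namespace Vale.Agent.P111.SF

open Finset Vale.Agent.P111 Vale.Agent.P111.TK Vale.Agent.P111.TW

variable {D M M' i : ℕ}

/-- The values of the character `b` at the points `p l`. -/
def vals (p : Fin i → Fin D → ℤˣ) (b : Fin D → ℤˣ) : Fin i → ℤˣ := fun l => chi b (p l)

/-- The fibre over `β`. -/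
def fib (p : Fin i → Fin D → ℤˣ) (Λ : Finset (Fin D → ℤˣ)) (β : Fin i → ℤˣ) :
    Finset (Fin D → ℤˣ) := Λ.filter fun b => vals p b = β

/-- The number of pairs of `Λ` in one fibre. -/
noncomputable def coll (p : Fin i → Fin D → ℤˣ) (Λ : Finset (Fin D → ℤˣ)) : ℝ :=
  ∑ b ∈ Λ, ∑ b' ∈ Λ, if vals p b = vals p b' then 1 else 0

theorem fib_sg_eq_or (u : ℤˣ) : sg u = 1 ∨ sg u = -1 := by
  rcases Int.units_eq_one_or u with h | h
  · left
    rw [h, sg_one]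
  · right
    rw [h, sg_neg_one]

/-- Indicator of a product event. -/
theorem avg_ind_pow (Q : (Fin D → ℤˣ) → Prop) [DecidablePred Q] :
    (avg fun p : Fin i → Fin D → ℤˣ => if ∀ l, Q (p l) then (1:ℝ) else 0) =
      (avg fun x : Fin D → ℤˣ => if Q x then (1:ℝ) else 0) ^ i := by
  have h : ∀ p : Fin i → Fin D → ℤˣ, (if ∀ l, Q (p l) then (1:ℝ) else 0) =
      ∏ l, (fun x : Fin D → ℤˣ => if Q x then (1:ℝ) else 0) (p l) := by
    intro p
    by_cases hp : ∀ l, Q (p l)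
    · rw [if_pos hp]
      symm
      exact Finset.prod_eq_one fun l _ => if_pos (hp l)
    · rw [if_neg hp]
      push Not at hp
      obtain ⟨l, hl⟩ := hp
      symm
      exact Finset.prod_eq_zero (Finset.mem_univ l) (if_neg hl)
  rw [avg_congr h, avg_pi_prod (fun (_ : Fin i) (x : Fin D → ℤˣ) => if Q x then (1:ℝ) else 0),
    Finset.prod_const, Finset.card_univ, Fintype.card_fin]

theorem avg_pair {b b' : Fin D → ℤˣ} (h : b ≠ b') :
    (avg fun x : Fin D → ℤˣ => if chi b x = chi b' x then (1:ℝ) else 0) = 1 / 2 := by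
  have h1 : ∀ x : Fin D → ℤˣ, (if chi b x = chi b' x then (1:ℝ) else 0) =
      (1 + sg (chi b x) * sg (chi b' x)) / 2 := by
    intro x
    rcases Int.units_eq_one_or (chi b x) with h1 | h1 <;>
      rcases Int.units_eq_one_or (chi b' x) with h2 | h2 <;>
      simp [h1, h2, sg_one, sg_neg_one]
  rw [avg_congr h1, avg_div, avg_add, avg_const, avg_chi_mul_chi, if_neg h]
  norm_num

theorem avg_prod_one_add (J : Fin M → Fin D → ℤˣ)
    (hJ : ∀ S : Finset (Fin M), S.Nonempty → JT J S ≠ 1) (c : ℝ) :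
    (avg fun x : Fin D → ℤˣ => ∏ a, (1 + c * sg (chi (J a) x))) = 1 := by
  have h1 : ∀ x : Fin D → ℤˣ, ∏ a, (1 + c * sg (chi (J a) x)) =
      ∑ S : Finset (Fin M), c ^ #S * sg (chi (JT J S) x) := by
    intro x
    rw [Finset.prod_one_add, Finset.powerset_univ]
    refine Finset.sum_congr rfl fun S _ => ?_
    rw [Finset.prod_mul_distrib, Finset.prod_const, JT, chi_prod_left, H1.sg_prod]
  rw [avg_congr h1, avg_sum]
  have h2 : ∀ S : Finset (Fin M), (avg fun x : Fin D → ℤˣ => c ^ #S * sg (chi (JT J S) x)) =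
      if S = ∅ then 1 else 0 := by
    intro S
    rw [avg_mul_left, avg_chi]
    by_cases hS : S = ∅
    · subst hS
      simp [JT]
    · rw [if_neg hS, if_neg (hJ S (Finset.nonempty_iff_ne_empty.mpr hS)), mul_zero]
  rw [Finset.sum_congr rfl fun S _ => h2 S]
  simp

theorem avg_tuple_le (J : Fin M → Fin D → ℤˣ)
    (hJ : ∀ S : Finset (Fin M), S.Nonempty → JT J S ≠ 1) :
    (avg fun x : Fin D → ℤˣ => if ∀ a a', chi (J a) x = chi (J a') x then (1:ℝ) else 0) ≤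
      2 / 2 ^ M := by
  have h1 : ∀ x : Fin D → ℤˣ, (if ∀ a a', chi (J a) x = chi (J a') x then (1:ℝ) else 0) ≤
      (∏ a, (1 + 1 * sg (chi (J a) x)) + ∏ a, (1 + (-1) * sg (chi (J a) x))) / 2 ^ M := by
    intro x
    have hp : 0 ≤ ∏ a, (1 + 1 * sg (chi (J a) x)) := Finset.prod_nonneg fun a _ => by
      rcases fib_sg_eq_or (chi (J a) x) with h | h <;> rw [h] <;> norm_num
    have hn : 0 ≤ ∏ a, (1 + (-1) * sg (chi (J a) x)) := Finset.prod_nonneg fun a _ => by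
      rcases fib_sg_eq_or (chi (J a) x) with h | h <;> rw [h] <;> norm_num
    split_ifs with hx
    · rw [le_div_iff₀ (by positivity), one_mul]
      by_cases hall : ∀ a, sg (chi (J a) x) = 1
      · have : ∏ a, (1 + 1 * sg (chi (J a) x)) = 2 ^ M := by
          rw [Finset.prod_congr rfl fun a _ => by rw [hall a]]
          rw [Finset.prod_const, Finset.card_univ, Fintype.card_fin]
          norm_num
        linarith
      · push Not at hall
        obtain ⟨a₀, ha₀⟩ := hall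
        have h3 : ∀ a, sg (chi (J a) x) = -1 := by
          intro a
          rw [hx a a₀]
          exact (fib_sg_eq_or _).resolve_left ha₀
        have : ∏ a, (1 + (-1) * sg (chi (J a) x)) = 2 ^ M := by
          rw [Finset.prod_congr rfl fun a _ => by rw [h3 a]]
          rw [Finset.prod_const, Finset.card_univ, Fintype.card_fin]
          norm_num
        linarith
    · positivity
  refine (avg_mono h1).trans ?_
  rw [avg_div, avg_add, avg_prod_one_add J hJ, avg_prod_one_add J hJ]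
  norm_num

theorem avg_coll_le (i : ℕ) (Λ : Finset (Fin D → ℤˣ)) :
    (avg fun p : Fin i → Fin D → ℤˣ => coll p Λ) ≤ #Λ + (#Λ : ℝ) ^ 2 / 2 ^ i := by
  classical
  unfold coll
  rw [avg_sum]
  have h1 : ∀ b ∈ Λ, (avg fun p : Fin i → Fin D → ℤˣ =>
      ∑ b' ∈ Λ, if vals p b = vals p b' then (1:ℝ) else 0) ≤ 1 + #Λ / 2 ^ i := by
    intro b hb
    rw [avg_sum]
    have h2 : ∀ b' ∈ Λ, (avg fun p : Fin i → Fin D → ℤˣ =>
        if vals p b = vals p b' then (1:ℝ) else 0) ≤ (if b = b' then 1 else 0) + 1 / 2 ^ i := by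
      intro b' hb'
      have h3 : ∀ p : Fin i → Fin D → ℤˣ, (if vals p b = vals p b' then (1:ℝ) else 0) =
          if ∀ l, (fun x => chi b x = chi b' x) (p l) then (1:ℝ) else 0 := by
        intro p
        have : (vals p b = vals p b') ↔ ∀ l, (fun x => chi b x = chi b' x) (p l) :=
          ⟨fun h l => congrFun h l, fun h => funext h⟩
        by_cases hc : vals p b = vals p b'
        · rw [if_pos hc, if_pos (this.mp hc)]
        · rw [if_neg hc, if_neg (fun h => hc (this.mpr h))]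
      rw [avg_congr h3, avg_ind_pow (fun x => chi b x = chi b' x)]
      by_cases hbb : b = b'
      · subst hbb
        have h4 : ∀ x : Fin D → ℤˣ, (if chi b x = chi b x then (1:ℝ) else 0) = 1 :=
          fun x => if_pos rfl
        rw [avg_congr h4, avg_const, one_pow, if_pos rfl]
        have : (0:ℝ) ≤ 1 / 2 ^ i := by positivity
        linarith
      · rw [avg_pair hbb, if_neg hbb, zero_add, div_pow, one_pow]
    refine (Finset.sum_le_sum h2).trans ?_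
    rw [Finset.sum_add_distrib, Finset.sum_ite_eq, if_pos hb, Finset.sum_const, nsmul_eq_mul]
    linarith [mul_one_div (#Λ : ℝ) (2 ^ i)]
  refine (Finset.sum_le_sum h1).trans ?_
  rw [Finset.sum_const, nsmul_eq_mul]
  have : (#Λ : ℝ) * (1 + #Λ / 2 ^ i) = #Λ + (#Λ : ℝ) ^ 2 / 2 ^ i := by ring
  linarith

theorem coll_eq (p : Fin i → Fin D → ℤˣ) (Λ : Finset (Fin D → ℤˣ)) :
    coll p Λ = ∑ β, (#(fib p Λ β) : ℝ) ^ 2 := by
  classical
  have h1 : ∀ β, (#(fib p Λ β) : ℝ) ^ 2 =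
      ∑ b ∈ Λ, ∑ b' ∈ Λ, (if vals p b = β then (1:ℝ) else 0) * (if vals p b' = β then 1 else 0) := by
    intro β
    rw [← Finset.sum_mul_sum, sq, fib, Finset.sum_boole]
  simp only [h1]
  rw [Finset.sum_comm]
  unfold coll
  refine Finset.sum_congr rfl fun b _ => ?_
  rw [Finset.sum_comm]
  refine Finset.sum_congr rfl fun b' _ => ?_
  have h2 : ∀ β, (if vals p b = β then (1:ℝ) else 0) * (if vals p b' = β then 1 else 0) =
      if vals p b = β then (if vals p b' = β then 1 else 0) else 0 := by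
    intro β
    split_ifs <;> simp
  simp only [h2]
  rw [Finset.sum_ite_eq, if_pos (Finset.mem_univ _)]
  by_cases hb : vals p b = vals p b'
  · rw [if_pos hb, if_pos hb.symm]
  · rw [if_neg hb, if_neg (fun h => hb h.symm)]

theorem sum_fib (p : Fin i → Fin D → ℤˣ) (Λ : Finset (Fin D → ℤˣ)) :
    ∑ β, (#(fib p Λ β) : ℝ) = #Λ := by
  classical
  have h := Finset.card_eq_sum_card_fiberwise (f := vals p) (s := Λ) (t := Finset.univ)
    (fun b _ => Finset.mem_coe.mpr (Finset.mem_univ _))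
  rw [h]
  push_cast
  rfl

/-- The bad independent tuples in one fibre. -/
noncomputable def badT (p : Fin i → Fin D → ℤˣ) (Λ : Finset (Fin D → ℤˣ))
    (Bad : Finset (Fin M' → Fin D → ℤˣ)) : Finset (Fin M → Fin D → ℤˣ) := by
  classical
  exact (Fintype.piFinset fun _ : Fin M => Λ).filter fun J =>
    ((∀ S : Finset (Fin M), S.Nonempty → JT J S ≠ 1) ∧
      ∃ g : Fin M' → Finset (Fin M), Two g ∧ JG J g ∈ Bad) ∧
      ∀ a a', vals p (J a) = vals p (J a')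

/-- The bad independent tuples. -/
noncomputable def badI (M : ℕ) (Λ : Finset (Fin D → ℤˣ))
    (Bad : Finset (Fin M' → Fin D → ℤˣ)) : Finset (Fin M → Fin D → ℤˣ) := by
  classical
  exact (Fintype.piFinset fun _ : Fin M => Λ).filter fun J =>
    (∀ S : Finset (Fin M), S.Nonempty → JT J S ≠ 1) ∧
      ∃ g : Fin M' → Finset (Fin M), Two g ∧ JG J g ∈ Bad

theorem badI_card (M : ℕ) (Λ : Finset (Fin D → ℤˣ)) (Bad : Finset (Fin M' → Fin D → ℤˣ)) :
    (#(badI M Λ Bad) : ℝ) * (#Λ : ℝ) ^ 2 ≤ (2 ^ M) ^ M' * (#Bad * (#Λ : ℝ) ^ M) := by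
  classical
  set Ω : Finset (Fin M → Fin D → ℤˣ) := Fintype.piFinset fun _ : Fin M => Λ with hΩ
  have hsub : badI M Λ Bad ⊆ (((Finset.univ : Finset (Fin M' → Finset (Fin M))).filter
      fun g => Two g).biUnion fun g => Bad.biUnion fun b => Ω.filter fun J => JG J g = b) := by
    intro J hJ
    unfold badI at hJ
    rw [Finset.mem_filter] at hJ
    obtain ⟨hJ, _, g, hg, hgB⟩ := hJ
    rw [Finset.mem_biUnion]
    refine ⟨g, Finset.mem_filter.mpr ⟨Finset.mem_univ _, hg⟩, ?_⟩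
    rw [Finset.mem_biUnion]
    exact ⟨JG J g, hgB, Finset.mem_filter.mpr ⟨hJ, rfl⟩⟩
  have hc2 : #(badI M Λ Bad) * (#Λ * #Λ) ≤ (2 ^ M) ^ M' * (#Bad * #Λ ^ M) := by
    calc _ ≤ (∑ g ∈ (Finset.univ : Finset (Fin M' → Finset (Fin M))).filter fun g => Two g,
          ∑ b ∈ Bad, #(Ω.filter fun J => JG J g = b)) * (#Λ * #Λ) := by
          refine Nat.mul_le_mul_right _ ((Finset.card_le_card hsub).trans
            (Finset.card_biUnion_le.trans ?_))
          exact Finset.sum_le_sum fun g _ => Finset.card_biUnion_le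
      _ = ∑ g ∈ (Finset.univ : Finset (Fin M' → Finset (Fin M))).filter fun g => Two g,
          ∑ b ∈ Bad, #(Ω.filter fun J => JG J g = b) * (#Λ * #Λ) := by
          rw [Finset.sum_mul]
          exact Finset.sum_congr rfl fun g _ => by rw [Finset.sum_mul]
      _ ≤ ∑ _g ∈ (Finset.univ : Finset (Fin M' → Finset (Fin M))).filter fun g => Two g,
          ∑ _b ∈ Bad, #Λ ^ M := by
          refine Finset.sum_le_sum fun g hg => Finset.sum_le_sum fun b _ => ?_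
          exact fibre_g Λ (Finset.mem_filter.mp hg).2 b
      _ ≤ ∑ _g : Fin M' → Finset (Fin M), ∑ _b ∈ Bad, #Λ ^ M :=
          Finset.sum_le_sum_of_subset (Finset.filter_subset _ _)
      _ = (2 ^ M) ^ M' * (#Bad * #Λ ^ M) := by
          rw [Finset.sum_const, Finset.sum_const, Finset.card_univ, Fintype.card_fun,
            Fintype.card_finset, Fintype.card_fin, Fintype.card_fin, smul_eq_mul, smul_eq_mul]
  rw [sq]
  exact_mod_cast hc2

theorem avg_badT_le (i : ℕ) (Λ : Finset (Fin D → ℤˣ)) (Bad : Finset (Fin M' → Fin D → ℤˣ)) :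
    (avg fun p : Fin i → Fin D → ℤˣ => (#(badT (M := M) p Λ Bad) : ℝ)) ≤
      #(badI M Λ Bad) * (2 / 2 ^ M) ^ i := by
  classical
  have h1 : ∀ p : Fin i → Fin D → ℤˣ, (#(badT (M := M) p Λ Bad) : ℝ) =
      ∑ J ∈ badI M Λ Bad, if ∀ l, (fun x => ∀ a a', chi (J a) x = chi (J a') x) (p l)
        then (1:ℝ) else 0 := by
    intro p
    rw [Finset.sum_boole]
    have : badT (M := M) p Λ Bad = (badI M Λ Bad).filter fun J =>
        ∀ l, (fun x => ∀ a a', chi (J a) x = chi (J a') x) (p l) := by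
      ext J
      unfold badT badI
      simp only [Finset.mem_filter]
      constructor
      · rintro ⟨h1, h2, h3⟩
        exact ⟨⟨h1, h2⟩, fun l a a' => congrFun (h3 a a') l⟩
      · rintro ⟨⟨h1, h2⟩, h3⟩
        exact ⟨h1, h2, fun a a' => funext fun l => h3 l a a'⟩
    rw [this]
  rw [avg_congr h1, avg_sum, ← nsmul_eq_mul, ← Finset.sum_const]
  refine Finset.sum_le_sum fun J hJ => ?_
  rw [avg_ind_pow (fun x => ∀ a a', chi (J a) x = chi (J a') x)]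
  unfold badI at hJ
  refine pow_le_pow_left₀ (avg_nonneg fun x => ?_)
    (avg_tuple_le J (Finset.mem_filter.mp hJ).2.1) i
  split_ifs <;> norm_num

/-- The number of heavy fibres. -/
theorem heavy_card (p : Fin i → Fin D → ℤˣ) (Λ : Finset (Fin D → ℤˣ)) (hΛ : 0 < (#Λ : ℝ))
    (hc : coll p Λ * 2 ^ i ≤ 3 * (#Λ : ℝ) ^ 2) :
    (2:ℝ) ^ i / 12 ≤ #(Finset.univ.filter fun β => (#Λ : ℝ) / (2 * 2 ^ i) ≤ #(fib p Λ β)) := by
  classical
  set A := (Finset.univ : Finset (Fin i → ℤˣ)).filter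
    fun β => (#Λ : ℝ) / (2 * 2 ^ i) ≤ #(fib p Λ β) with hA
  have ht : (0:ℝ) < 2 ^ i := by positivity
  have h1 := sum_fib p Λ
  rw [← Finset.sum_filter_add_sum_filter_not Finset.univ
    (fun β => (#Λ : ℝ) / (2 * 2 ^ i) ≤ #(fib p Λ β))] at h1
  have h2 : ∑ β ∈ Finset.univ.filter (fun β => ¬ (#Λ : ℝ) / (2 * 2 ^ i) ≤ #(fib p Λ β)),
      (#(fib p Λ β) : ℝ) ≤ #Λ / 2 := by
    calc _ ≤ ∑ β ∈ Finset.univ.filter (fun β => ¬ (#Λ : ℝ) / (2 * 2 ^ i) ≤ #(fib p Λ β)),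
          (#Λ : ℝ) / (2 * 2 ^ i) :=
          Finset.sum_le_sum fun β hβ => (not_le.mp (Finset.mem_filter.mp hβ).2).le
      _ ≤ ∑ _β : Fin i → ℤˣ, (#Λ : ℝ) / (2 * 2 ^ i) :=
          Finset.sum_le_sum_of_subset_of_nonneg (Finset.filter_subset _ _)
            fun _ _ _ => by positivity
      _ = #Λ / 2 := by
          rw [Finset.sum_const, Finset.card_univ, Fintype.card_fun, Fintype.card_fin,
            Fintype.card_units_int, nsmul_eq_mul]
          push_cast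
          field_simp
  have h3 : (#Λ : ℝ) / 2 ≤ ∑ β ∈ A, (#(fib p Λ β) : ℝ) := by linarith
  have h4 : (∑ β ∈ A, (#(fib p Λ β) : ℝ)) ^ 2 ≤ #A * coll p Λ := by
    refine sq_sum_le_card_mul_sum_sq.trans ?_
    rw [coll_eq]
    refine mul_le_mul_of_nonneg_left ?_ (by positivity)
    exact Finset.sum_le_sum_of_subset_of_nonneg (Finset.subset_univ _) fun _ _ _ => sq_nonneg _
  have h5 : ((#Λ : ℝ) / 2) ^ 2 ≤ #A * coll p Λ :=
    (pow_le_pow_left₀ (by positivity) h3 2).trans h4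
  have h6 : ((#Λ : ℝ) / 2) ^ 2 * 2 ^ i ≤ #A * (3 * (#Λ : ℝ) ^ 2) := by
    calc ((#Λ : ℝ) / 2) ^ 2 * 2 ^ i ≤ (#A * coll p Λ) * 2 ^ i :=
          mul_le_mul_of_nonneg_right h5 ht.le
      _ = #A * (coll p Λ * 2 ^ i) := by ring
      _ ≤ #A * (3 * (#Λ : ℝ) ^ 2) := mul_le_mul_of_nonneg_left hc (by positivity)
  have h7 : (#Λ : ℝ) ^ 2 * (2 ^ i / 12) ≤ (#Λ : ℝ) ^ 2 * #A := by linarith
  exact le_of_mul_le_mul_left h7 (by positivity)

theorem coll_bound {L₀ : ℝ} (hL₀ : 1 ≤ L₀) (Λ : Finset (Fin D → ℤˣ)) (i : ℕ)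
    (h1 : 2 * L₀ * 2 ^ i ≤ #Λ) (hn : (0:ℝ) < #Λ) :
    2 ^ i / (#Λ:ℝ) ^ 2 * (avg fun p : Fin i → Fin D → ℤˣ => coll p Λ) ≤ 3 / 2 := by
  have ht : (0:ℝ) < 2 ^ i := by positivity
  calc _ ≤ 2 ^ i / (#Λ:ℝ) ^ 2 * (#Λ + (#Λ : ℝ) ^ 2 / 2 ^ i) :=
        mul_le_mul_of_nonneg_left (avg_coll_le i Λ) (by positivity)
    _ = 2 ^ i / #Λ + 1 := by
        field_simp
    _ ≤ 3 / 2 := by
        have : (2:ℝ) ^ i / #Λ ≤ 1 / 2 := by
          rw [div_le_iff₀ hn]
          have : (2:ℝ) * 2 ^ i ≤ 2 * L₀ * 2 ^ i := by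
            refine mul_le_mul_of_nonneg_right ?_ ht.le
            linarith
          linarith
        linarith

theorem pow_div_pow_aux (M i : ℕ) (x : ℝ) :
    72 / 2 ^ i * (x * (2 / 2 ^ M) ^ i) = 72 * x / ((2:ℝ) ^ i) ^ M := by
  have h1 : (0:ℝ) < 2 ^ i := by positivity
  have h2 : ((2:ℝ) ^ i) ^ M = (2 ^ M) ^ i := by rw [← pow_mul, ← pow_mul, mul_comm]
  have h3 : (0:ℝ) < (2 ^ M) ^ i := by positivity
  rw [h2, div_pow, eq_div_iff h3.ne', mul_assoc, mul_assoc, div_mul_cancel₀ _ h3.ne',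
    div_mul_eq_mul_div, div_eq_iff h1.ne', mul_assoc]

theorem bad_bound {L₀ L1 : ℝ}
    (hL1 : 72 * ((2 ^ M) ^ M' * (4 * L₀) ^ M) ≤ L1)
    (Λ : Finset (Fin D → ℤˣ)) (Bad : Finset (Fin M' → Fin D → ℤˣ)) (i : ℕ) (hn : (0:ℝ) < #Λ)
    (h2 : (#Λ : ℝ) ≤ 4 * L₀ * 2 ^ i) (hBad : L1 * #Bad < (#Λ : ℝ) ^ 2) :
    72 * (#(badI M Λ Bad) : ℝ) ≤ (2 ^ i) ^ M := by
  have hb := badI_card M Λ Bad
  have hn2 : (0:ℝ) < (#Λ:ℝ) ^ 2 := by positivity
  have hnM : (#Λ : ℝ) ^ M ≤ (4 * L₀) ^ M * (2 ^ i) ^ M := by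
    rw [← mul_pow]
    exact pow_le_pow_left₀ hn.le h2 M
  have hK : (0:ℝ) ≤ (2 ^ M) ^ M' := by positivity
  have hB0 : (0:ℝ) ≤ #Bad := by positivity
  have h3 : (#(badI M Λ Bad) : ℝ) * (#Λ : ℝ) ^ 2 ≤
      ((2 ^ M) ^ M' * (4 * L₀) ^ M) * #Bad * (2 ^ i) ^ M := by
    refine hb.trans ?_
    calc (2 ^ M) ^ M' * (#Bad * (#Λ : ℝ) ^ M) ≤
        (2 ^ M) ^ M' * (#Bad * ((4 * L₀) ^ M * (2 ^ i) ^ M)) :=
          mul_le_mul_of_nonneg_left (mul_le_mul_of_nonneg_left hnM hB0) hK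
      _ = _ := by ring
  have h4 : 72 * ((#(badI M Λ Bad) : ℝ) * (#Λ : ℝ) ^ 2) ≤ (#Λ : ℝ) ^ 2 * (2 ^ i) ^ M := by
    calc 72 * ((#(badI M Λ Bad) : ℝ) * (#Λ : ℝ) ^ 2) ≤
        72 * (((2 ^ M) ^ M' * (4 * L₀) ^ M) * #Bad * (2 ^ i) ^ M) :=
          mul_le_mul_of_nonneg_left h3 (by norm_num)
      _ = (72 * ((2 ^ M) ^ M' * (4 * L₀) ^ M)) * #Bad * (2 ^ i) ^ M := by ring
      _ ≤ L1 * #Bad * (2 ^ i) ^ M := by
          refine mul_le_mul_of_nonneg_right ?_ (by positivity)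
          exact mul_le_mul_of_nonneg_right hL1 hB0
      _ ≤ (#Λ : ℝ) ^ 2 * (2 ^ i) ^ M := mul_le_mul_of_nonneg_right hBad.le (by positivity)
  have : (#Λ : ℝ) ^ 2 * (72 * (#(badI M Λ Bad) : ℝ)) ≤ (#Λ : ℝ) ^ 2 * (2 ^ i) ^ M := by
    linarith
  exact le_of_mul_le_mul_left this hn2

theorem badT_bound {L₀ L1 : ℝ}
    (hL1 : 72 * ((2 ^ M) ^ M' * (4 * L₀) ^ M) ≤ L1)
    (Λ : Finset (Fin D → ℤˣ)) (Bad : Finset (Fin M' → Fin D → ℤˣ)) (i : ℕ) (hn : (0:ℝ) < #Λ)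
    (h2 : (#Λ : ℝ) ≤ 4 * L₀ * 2 ^ i) (hBad : L1 * #Bad < (#Λ : ℝ) ^ 2) :
    72 / 2 ^ i * (avg fun p : Fin i → Fin D → ℤˣ => (#(badT (M := M) p Λ Bad) : ℝ)) ≤ 1 := by
  have h5 := bad_bound hL1 Λ Bad i hn h2 hBad
  refine (mul_le_mul_of_nonneg_left (avg_badT_le i Λ Bad) (by positivity)).trans ?_
  rw [pow_div_pow_aux, div_le_one (by positivity)]
  exact h5

theorem coll_nonneg (p : Fin i → Fin D → ℤˣ) (Λ : Finset (Fin D → ℤˣ)) : 0 ≤ coll p Λ := by
  rw [coll_eq]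
  exact Finset.sum_nonneg fun _ _ => sq_nonneg _

/-- Good points. -/
theorem exists_points {L₀ L1 : ℝ} (hL₀ : 1 ≤ L₀)
    (hL1 : 72 * ((2 ^ M) ^ M' * (4 * L₀) ^ M) ≤ L1)
    (Λ : Finset (Fin D → ℤˣ)) (Bad : Finset (Fin M' → Fin D → ℤˣ)) (i : ℕ) (hn : (0:ℝ) < #Λ)
    (h1 : 2 * L₀ * 2 ^ i ≤ #Λ) (h2 : (#Λ : ℝ) ≤ 4 * L₀ * 2 ^ i)
    (hBad : L1 * #Bad < (#Λ : ℝ) ^ 2) :
    ∃ p : Fin i → Fin D → ℤˣ, coll p Λ * 2 ^ i ≤ 3 * (#Λ : ℝ) ^ 2 ∧
      (#(badT (M := M) p Λ Bad) : ℝ) ≤ 2 ^ i / 24 := by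
  by_contra hcon
  push Not at hcon
  have ht : (0:ℝ) < 2 ^ i := by positivity
  have hn2 : (0:ℝ) < (#Λ:ℝ) ^ 2 := by positivity
  have hF3 : ∀ p : Fin i → Fin D → ℤˣ, 3 ≤ 2 ^ i / (#Λ:ℝ) ^ 2 * coll p Λ +
      72 / 2 ^ i * (#(badT (M := M) p Λ Bad) : ℝ) := by
    intro p
    by_cases hp : coll p Λ * 2 ^ i ≤ 3 * (#Λ : ℝ) ^ 2
    · have h3 := hcon p hp
      have h4 : 3 ≤ 72 / 2 ^ i * (#(badT (M := M) p Λ Bad) : ℝ) := by
        rw [div_mul_eq_mul_div, le_div_iff₀ ht]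
        linarith
      have h5 : 0 ≤ 2 ^ i / (#Λ:ℝ) ^ 2 * coll p Λ :=
        mul_nonneg (div_nonneg ht.le hn2.le) (coll_nonneg p Λ)
      linarith
    · have h4 : 3 ≤ 2 ^ i / (#Λ:ℝ) ^ 2 * coll p Λ := by
        rw [div_mul_eq_mul_div, le_div_iff₀ hn2]
        rw [not_le] at hp
        linarith
      have h5 : 0 ≤ 72 / 2 ^ i * (#(badT (M := M) p Λ Bad) : ℝ) :=
        mul_nonneg (div_nonneg (by norm_num) ht.le) (Nat.cast_nonneg _)
      linarith
  have hE3 := avg_mono hF3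
  rw [avg_const, avg_add, avg_mul_left, avg_mul_left] at hE3
  have hE1 := coll_bound hL₀ Λ i h1 hn
  have hE2 := badT_bound hL1 Λ Bad i hn h2 hBad
  linarith

/-- Large sets of characters have many good fibres. -/
theorem fibres (M M' : ℕ) : ∃ L : ℝ, 1 ≤ L ∧ Fibres M M' L := by
  classical
  obtain ⟨L₀, hL₀1, hL₀⟩ := TW.generic M 0
  have hK : (0:ℝ) ≤ 72 * ((2 ^ M) ^ M' * (4 * L₀) ^ M) := by positivity
  refine ⟨72 * ((2 ^ M) ^ M' * (4 * L₀) ^ M) + 96 * L₀, by linarith, ?_⟩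
  intro D Λ Bad hΛ hBad
  set L1 := 72 * ((2 ^ M) ^ M' * (4 * L₀) ^ M) + 96 * L₀ with hL1
  have hL1a : 72 * ((2 ^ M) ^ M' * (4 * L₀) ^ M) ≤ L1 := by linarith
  have hL1b : 96 * L₀ ≤ L1 := by linarith
  have hL1c : 0 < L1 := by linarith
  have hn : (0:ℝ) < #Λ := by linarith
  obtain ⟨i, hi1, hi2⟩ := exists_nat_pow_near (x := (#Λ : ℝ) / (2 * L₀)) (y := (2:ℝ)) (by
    rw [one_le_div (by positivity)]
    linarith) (by norm_num)
  rw [le_div_iff₀ (by positivity)] at hi1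
  rw [div_lt_iff₀ (by positivity), pow_succ] at hi2
  have h1 : 2 * L₀ * 2 ^ i ≤ #Λ := by linarith
  have h2 : (#Λ : ℝ) ≤ 4 * L₀ * 2 ^ i := by linarith
  obtain ⟨p, hp1, hp2⟩ := exists_points (M := M) hL₀1 hL1a Λ Bad i hn h1 h2 hBad
  have ht : (0:ℝ) < 2 ^ i := by positivity
  have hA := heavy_card p Λ hn hp1
  set A := (Finset.univ : Finset (Fin i → ℤˣ)).filter
    fun β => (#Λ : ℝ) / (2 * 2 ^ i) ≤ #(fib p Λ β) with hAdef
  have hJ : ∀ β, ∃ J : Fin M → Fin D → ℤˣ, β ∈ A → (∀ a, J a ∈ fib p Λ β) ∧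
      ∀ S : Finset (Fin M), S.Nonempty → JT J S ≠ 1 := by
    intro β
    by_cases hβ : β ∈ A
    · have h3 : L₀ ≤ #(fib p Λ β) := by
        refine le_trans ?_ (Finset.mem_filter.mp hβ).2
        rw [le_div_iff₀ (by positivity)]
        linarith
      have h4 : L₀ * #(∅ : Finset (Fin 0 → Fin D → ℤˣ)) < (#(fib p Λ β) : ℝ) ^ 2 := by
        rw [Finset.card_empty, Nat.cast_zero, mul_zero]
        have : (0:ℝ) < #(fib p Λ β) := by linarith
        positivity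
      obtain ⟨J, hJ1, hJ2, _⟩ := hL₀ D (fib p Λ β) ∅ h3 h4
      exact ⟨J, fun _ => ⟨hJ1, hJ2⟩⟩
    · exact ⟨fun _ => 1, fun h => absurd h hβ⟩
  choose J hJ using hJ
  set BB := A.filter fun β => ∀ g : Fin M' → Finset (Fin M), Two g → JG (J β) g ∉ Bad with hBB
  refine ⟨i, p, BB, J, ?_, ?_⟩
  · have h3 : #(A.filter fun β => ¬ ∀ g : Fin M' → Finset (Fin M), Two g → JG (J β) g ∉ Bad) ≤
        #(badT (M := M) p Λ Bad) := by
      refine Finset.card_le_card_of_injOn J ?_ ?_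
      · intro β hβ
        rw [Finset.mem_coe, Finset.mem_filter] at hβ
        obtain ⟨hβA, hβ2⟩ := hβ
        push Not at hβ2
        obtain ⟨hJ1, hJ2⟩ := hJ β hβA
        unfold badT
        rw [Finset.mem_coe, Finset.mem_filter, Fintype.mem_piFinset]
        refine ⟨fun a => (Finset.mem_filter.mp (hJ1 a)).1, ⟨hJ2, hβ2⟩, fun a a' => ?_⟩
        rw [(Finset.mem_filter.mp (hJ1 a)).2, (Finset.mem_filter.mp (hJ1 a')).2]
      · intro β hβ β' hβ' hJJ
        rw [Finset.mem_coe, Finset.mem_filter] at hβ hβ'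
        obtain ⟨hβA, hβ2⟩ := hβ
        push Not at hβ2
        obtain ⟨g, ⟨k, _, ⟨a, _⟩, _, _⟩, _⟩ := hβ2
        have h4 := (Finset.mem_filter.mp ((hJ β hβA).1 a)).2
        have h5 := (Finset.mem_filter.mp ((hJ β' hβ'.1).1 a)).2
        rw [← h4, ← h5, hJJ]
    have h4 : #A = #BB +
        #(A.filter fun β => ¬ ∀ g : Fin M' → Finset (Fin M), Two g → JG (J β) g ∉ Bad) :=
      (Finset.card_filter_add_card_filter_not _).symm
    have h5 : (#A : ℝ) ≤ #BB + #(badT (M := M) p Λ Bad) := by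
      rw [h4]
      push_cast
      have : (#(A.filter fun β => ¬ ∀ g : Fin M' → Finset (Fin M), Two g → JG (J β) g ∉ Bad) : ℝ) ≤
        #(badT (M := M) p Λ Bad) := by exact_mod_cast h3
      linarith
    have h6 : (2:ℝ) ^ i / 24 ≤ #BB := by linarith
    have h7 : 4 * L₀ * 2 ^ i ≤ 96 * L₀ * #BB := by
      have : 96 * L₀ * (2 ^ i / 24) ≤ 96 * L₀ * #BB :=
        mul_le_mul_of_nonneg_left h6 (by positivity)
      linarith
    have h8 : 96 * L₀ * #BB ≤ L1 * #BB := mul_le_mul_of_nonneg_right hL1b (by positivity)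
    linarith
  · intro β hβ
    rw [hBB, Finset.mem_filter] at hβ
    obtain ⟨hβA, hβ2⟩ := hβ
    obtain ⟨hJ1, hJ2⟩ := hJ β hβA
    exact ⟨fun a => (Finset.mem_filter.mp (hJ1 a)).1,
      fun a l => congrFun (Finset.mem_filter.mp (hJ1 a)).2 l, hJ2, hβ2⟩

end Vale.Agent.P111.SF
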