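import Vale.Agent.P111.SF.Defs
import Vale.Agent.P111.SF.Arith
import Vale.Agent.P111.TW.Cnt
import Vale.Agent.P111.TK.I
import Vale.Agent.P111.EZ.Main

/-! The scale free step: from the step to the theorem. -/

set_option linter.unusedSectionVars false

namespace Vale.Agent.P111.SF

open Finset Vale.Agent.P111

universe u

/-- The statement of the step. -/
def StepSt (q r C : ℝ) : Prop :=
  ∃ C₀ K₀ : ℝ, 1 ≤ C₀ ∧ 1 ≤ K₀ ∧ ∀ (X : Type u) [NormedAddCommGroup X] [NormedSpace ℝ X]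
    (T : X →L[ℝ] X), CotypeWith q C X → CotypeWith r C (X →L[ℝ] ℝ) → ‖T‖ ≤ C →
    ∀ (R n₁ : ℝ), 0 < R → 0 ≤ n₁ → CB T (2 / R) n₁ →
    ∀ (D : ℕ) (θ : (Fin D → ℤˣ) → (X →L[ℝ] ℝ)), (∀ x, ‖θ x‖ ≤ 1) →
      C₀ * (1 + R) * (1 + n₁) ≤ cnt T θ (1 / R) →
      ∃ (D' : ℕ) (θ' : (Fin D' → ℤˣ) → (X →L[ℝ] ℝ)), (∀ x, ‖θ' x‖ ≤ 1) ∧
        (cnt T θ (1 / R) : ℝ) ^ 2 ≤ C₀ * cnt T θ' (1 / (K₀ * R))

section

variable {X : Type u} [NormedAddCommGroup X] [NormedSpace ℝ X]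

theorem cnt_mono {D : ℕ} (T : X →L[ℝ] X) (θ : (Fin D → ℤˣ) → (X →L[ℝ] ℝ)) {e e' : ℝ}
    (h : e ≤ e') : cnt T θ e' ≤ cnt T θ e := by
  refine Finset.card_le_card fun b hb => ?_
  rw [Finset.mem_filter] at hb ⊢
  exact ⟨hb.1, h.trans hb.2⟩

theorem CB.mono {T : X →L[ℝ] X} {e e' n : ℝ} (h : CB T e n) (he : e ≤ e') : CB T e' n :=
  fun D θ hθ => le_trans (by exact_mod_cast cnt_mono T θ he) (h D θ hθ)

/-- The maximum is attained. -/
theorem exists_max {T : X →L[ℝ] X} {e : ℝ} {c : ℝ} (hc : CB T e c) : ∃ g : ℕ, CB T e g ∧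
    ∃ (D : ℕ) (θ : (Fin D → ℤˣ) → (X →L[ℝ] ℝ)), (∀ x, ‖θ x‖ ≤ 1) ∧ g ≤ cnt T θ e := by
  classical
  obtain ⟨n, hn⟩ := exists_nat_ge c
  have hex : ∃ n : ℕ, CB T e n := ⟨n, fun D θ hθ => (hc D θ hθ).trans hn⟩
  refine ⟨Nat.find hex, Nat.find_spec hex, ?_⟩
  rcases Nat.eq_zero_or_pos (Nat.find hex) with h0 | h0
  · exact ⟨0, 0, fun x => by simp, by rw [h0]; exact Nat.zero_le _⟩
  · have h1 := Nat.find_min hex (Nat.sub_lt h0 Nat.one_pos)
    unfold CB at h1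
    push Not at h1
    obtain ⟨D, θ, hθ, h2⟩ := h1
    refine ⟨D, θ, hθ, ?_⟩
    have h3 : Nat.find hex - 1 < cnt T θ e := Nat.cast_lt.mp h2
    omega

theorem norm_fc_le_of {D : ℕ} {T : X →L[ℝ] X} {C : ℝ} (hT : ‖T‖ ≤ C)
    {θ : (Fin D → ℤˣ) → (X →L[ℝ] ℝ)} (hθ : ∀ x, ‖θ x‖ ≤ 1) (b : Fin D → ℤˣ) :
    ‖TW.fc T θ b‖ ≤ C := by
  refine (H1.norm_avg_le _).trans ?_
  have h1 : ∀ x : Fin D → ℤˣ, ‖sg (TK.chi b x) • (θ x).comp T‖ ≤ C := by
    intro x
    have h0 : 0 ≤ C := (norm_nonneg _).trans hT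
    rw [norm_smul, Real.norm_eq_abs, abs_sg, one_mul]
    refine (ContinuousLinearMap.opNorm_comp_le _ _).trans ?_
    calc ‖θ x‖ * ‖T‖ ≤ 1 * C := mul_le_mul (hθ x) hT (norm_nonneg _) zero_le_one
      _ = C := one_mul C
  refine (avg_mono h1).trans (le_of_eq ?_)
  exact avg_const _

/-- The bound for the number of large coefficients. -/
theorem count_of_step {q r C : ℝ} (hC : 1 ≤ C) (hst : StepSt.{u} q r C) :
    ∃ K : ℕ → ℝ, ∀ (X : Type u) [NormedAddCommGroup X] [NormedSpace ℝ X] (T : X →L[ℝ] X),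
      CotypeWith q C X → CotypeWith r C (X →L[ℝ] ℝ) → ‖T‖ ≤ C →
      FiniteDimensional ℝ (LinearMap.range (T : X →ₗ[ℝ] X)) →
      ∀ j : ℕ, CB T (2 * C / 2 ^ j) (K j) := by
  obtain ⟨C₀, K₀, hC₀, hK₀, hstep⟩ := hst
  have hC0 : 0 < C := by linarith
  obtain ⟨k₀, hk₀⟩ := pow_unbounded_of_one_lt K₀ (one_lt_two (α := ℝ))
  obtain ⟨K, hK⟩ := arith C₀ k₀ hC₀
  refine ⟨K, ?_⟩
  intro X _ _ T hq hr hT hfd j
  have hepos : ∀ j : ℕ, (0:ℝ) < 2 * C / 2 ^ j := fun j => by positivity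
  obtain ⟨c₁, hc₁⟩ : ∃ c₁ : ℝ, c₁ =
    (Module.finrank ℝ (LinearMap.range (T : X →ₗ[ℝ] X)) : ℝ) * C ^ 2 := ⟨_, rfl⟩
  have hc₁0 : 0 ≤ c₁ := by rw [hc₁]; positivity
  -- the count
  have hcount : ∀ j : ℕ, CB T (2 * C / 2 ^ j) (c₁ / C ^ 2 * 4 ^ j) := by
    intro j D θ hθ
    have h1 := TW.count_fc T hT (hepos j) θ hθ
    rw [← hc₁] at h1
    have h2 : (2 * C / 2 ^ j / 2) ^ 2 = C ^ 2 / 4 ^ j := by
      have : (4:ℝ) ^ j = (2 ^ j) ^ 2 := by rw [← pow_mul, mul_comm, pow_mul]; norm_num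
      rw [this]
      field_simp
    rw [h2] at h1
    have h3 : (cnt T θ (2 * C / 2 ^ j) : ℝ) * (C ^ 2 / 4 ^ j) ≤ c₁ := h1
    have h4 : (0:ℝ) < C ^ 2 / 4 ^ j := by positivity
    rw [← le_div_iff₀ h4] at h3
    refine h3.trans (le_of_eq ?_)
    field_simp
  choose g hg using fun j => exists_max (hcount j)
  have hg1 : ∀ j, CB T (2 * C / 2 ^ j) (g j) := fun j => (hg j).1
  have hgj : (g j : ℝ) ≤ K j := by
    refine hK g (c₁ / C ^ 2) ?_ ?_ ?_ j
    · obtain ⟨D, θ, hθ, h1⟩ := (hg 0).2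
      have h2 : cnt T θ (2 * C / 2 ^ 0) = 0 := by
        unfold cnt
        rw [Finset.card_eq_zero, Finset.filter_eq_empty_iff]
        intro b _
        have := norm_fc_le_of hT hθ b
        rw [pow_zero, div_one]
        linarith
      omega
    · intro j
      obtain ⟨D, θ, hθ, h1⟩ := (hg j).2
      exact le_trans (by exact_mod_cast h1) (hcount j D θ hθ)
    · intro j hj h1
      obtain ⟨D, θ, hθ, h2⟩ := (hg j).2
      have hcntj : (g j : ℝ) = cnt T θ (2 * C / 2 ^ j) :=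
        le_antisymm (by exact_mod_cast h2) (hg1 j D θ hθ)
      obtain ⟨R, hR⟩ : ∃ R : ℝ, R = 2 ^ j / (2 * C) := ⟨_, rfl⟩
      have hR0 : 0 < R := by rw [hR]; positivity
      have hR1 : 1 / R = 2 * C / 2 ^ j := by rw [hR, one_div_div]
      have hR2 : 2 / R = 2 * C / 2 ^ (j - 1) := by
        have e1 : (2:ℝ) ^ j = 2 * 2 ^ (j - 1) := by
          rw [← pow_succ']
          congr 1
          omega
        rw [hR, e1]
        field_simp
      have hRj : R ≤ 2 ^ j := by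
        rw [hR]
        refine div_le_self (by positivity) ?_
        linarith
      have hcb : CB T (2 / R) (g (j - 1)) := by rw [hR2]; exact hg1 (j - 1)
      obtain ⟨D', θ', hθ', h3⟩ := hstep X T hq hr hT R (g (j - 1)) hR0 (Nat.cast_nonneg _) hcb
        D θ hθ (by
          rw [hR1, ← hcntj]
          refine le_trans ?_ h1
          have e2 : (0:ℝ) ≤ 1 + g (j - 1) := by positivity
          refine mul_le_mul_of_nonneg_right ?_ e2
          refine mul_le_mul_of_nonneg_left ?_ (by linarith)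
          linarith)
      rw [hR1, ← hcntj] at h3
      refine h3.trans (mul_le_mul_of_nonneg_left ?_ (by linarith))
      have h4 : 2 * C / 2 ^ (j + k₀) ≤ 1 / (K₀ * R) := by
        have e3 : 1 / (K₀ * R) = 2 * C / (K₀ * 2 ^ j) := by
          rw [hR]
          field_simp
        rw [e3, pow_add, mul_comm ((2:ℝ) ^ j)]
        refine div_le_div_of_nonneg_left (by positivity) (by positivity) ?_
        exact mul_le_mul_of_nonneg_right hk₀.le (by positivity)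
      exact le_trans (by exact_mod_cast cnt_mono T θ' h4) (hg1 (j + k₀) D' θ' hθ')
  exact fun D θ hθ => (hg1 j D θ hθ).trans hgj

end

/-- The Rademacher functions are characters. -/
theorem rad_le_cnt {Y : Type u} [NormedAddCommGroup Y] [NormedSpace ℝ Y] (T : Y →L[ℝ] Y)
    {D : ℕ} (θ : (Fin D → ℤˣ) → (Y →L[ℝ] ℝ)) (e : ℝ) :
    #{k : Fin D | e ≤ ‖avg fun x => sg (x k) • (θ x).comp T‖} ≤ cnt T θ e := by
  classical
  refine Finset.card_le_card_of_injOn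
    (fun k => (fun i => if i = k then (-1 : ℤˣ) else 1 : Fin D → ℤˣ)) ?_ ?_
  · intro k hk
    have hk' : e ≤ ‖avg fun x => sg (x k) • (θ x).comp T‖ := by simpa using hk
    rw [Finset.coe_filter]
    refine ⟨Finset.mem_univ _, ?_⟩
    have h1 : TW.fc T θ (fun i => if i = k then (-1 : ℤˣ) else 1) =
        avg fun x => sg (x k) • (θ x).comp T := by
      unfold TW.fc
      refine avg_congr fun x => ?_
      congr 2
      rw [TK.chi_eq, Finset.prod_eq_single k]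
      · simp
      · intro i _ hi
        simp [hi]
      · intro h
        exact absurd (Finset.mem_univ _) h
    change e ≤ ‖TW.fc T θ (fun i => if i = k then (-1 : ℤˣ) else 1)‖
    rw [h1]
    exact hk'
  · intro k _ k' _ h
    by_contra hne
    have := congrFun h k
    simp only [if_true, if_neg hne] at this
    exact absurd this (by decide)

/-- The step implies the count. -/
theorem ezcount_of_step {q r C : ℝ} (hC : 1 ≤ C) (hst : StepSt.{u} q r C) :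
    ∃ K : ℝ, ∀ (Y : Type u) [NormedAddCommGroup Y] [NormedSpace ℝ Y] [CompleteSpace Y],
      CotypeWith q C Y → CotypeWith r C (Y →L[ℝ] ℝ) → EZ.Count K Y := by
  obtain ⟨K, hK⟩ := count_of_step hC hst
  have hC0 : 0 < C := by linarith
  obtain ⟨j, hj⟩ := pow_unbounded_of_one_lt (2 * C * 10000000) (one_lt_two (α := ℝ))
  refine ⟨K j, ?_⟩
  intro Y _ _ _ hq hr T hfd hT D θ hθ
  have h1 := (hK Y T hq hr (hT.trans hC) hfd j).mono (e' := 1 / 10000000) (by
    rw [div_le_div_iff₀ (by positivity) (by norm_num)]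
    linarith) D θ hθ
  exact le_trans (by exact_mod_cast rad_le_cnt T θ _) h1

/-- The step implies the theorem. -/
theorem q1_of_step (hst : ∀ q r C : ℝ, 2 ≤ q → 2 ≤ r → 1 ≤ C → StepSt.{u} q r C)
    {q r : ℝ} (X : Type u) [NormedAddCommGroup X] [NormedSpace ℝ X] [CompleteSpace X]
    (hB : HasBAP X) (hq : HasCotype q X) (hr : HasCotype r (X →L[ℝ] ℝ)) : IsKConvex X := by
  refine EZ.q1_of_count (q := q) (r := r) (fun C => ?_) X hB hq hr
  obtain ⟨K, hK⟩ := ezcount_of_step (le_max_right C 1)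
    (hst q r (max C 1) hq.1 hr.1 (le_max_right _ _))
  exact ⟨K, fun Y _ _ _ h1 h2 => hK Y (TK.CotypeWith.mono' h1 (le_max_left _ _))
    (TK.CotypeWith.mono' h2 (le_max_left _ _))⟩

end Vale.Agent.P111.SF
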