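import Vale.Agent.P111.SF.Step
import Vale.Agent.P111.SF.Fib
import Vale.Agent.P111.SF.Glue

/-!
The scale free step: the theorem.
-/

namespace Vale.Agent.P111.SF

open Finset Vale.Agent.P111

universe u

/-- The scale free step. -/
theorem step (q r C : ℝ) (hq : 2 ≤ q) (hr : 2 ≤ r) (hC : 1 ≤ C) : StepSt.{u} q r C :=
  step_of_fibres fibres q r C hq hr hC

/-- **The cotype-cotype conjecture.** -/
theorem q1 {q r : ℝ} (X : Type u) [NormedAddCommGroup X] [NormedSpace ℝ X] [CompleteSpace X]
    (hB : HasBAP X) (hq : HasCotype q X) (hr : HasCotype r (X →L[ℝ] ℝ)) : IsKConvex X :=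
  q1_of_step step X hB hq hr

end Vale.Agent.P111.SF
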