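import Vale.Agent.P111.SF.Defs
import Vale.Agent.P111.SF.Ext2

/-!
The scale free step.
-/

set_option linter.unusedSectionVars false

namespace Vale.Agent.P111.SF

open Finset Vale.Agent.P111 Vale.Agent.P111.TK Vale.Agent.P111.TW

section

variable {D M M' : ℕ} {Y : Type*} [NormedAddCommGroup Y] [NormedSpace ℝ Y]

/-- The hypotheses of the core estimate, from bounds for the sums. -/
theorem vhyp' {J : Fin M → Fin D → ℤˣ}
    {Z : (Fin M → ℤˣ) → (Y →L[ℝ] ℝ)} {ν : (Fin M' → Fin D → ℤˣ) → (Fin M' → ℤˣ) → Y}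
    {η : (Fin D → ℤˣ) → Y} {β₁ b₁ b B e' : ℝ}
    (hζη : ∀ i, (wc {i} Z) (avg fun x : Fin D → ℤˣ => sg (chi (J i) x) • η x) = 1)
    (hZ : ∀ ε, ‖Z ε‖ ≤ β₁) (he' : 0 ≤ e')
    (hZo : ∀ ε, Z (-ε) = - Z ε) (hνo : ∀ x δ, ν x (-δ) = - ν x δ)
    (hνk : ∀ x k, wc {k} (ν x) = η (x k))
    (hgen : ∀ g : Fin M' → Finset (Fin M), Two g → ‖nh ν (oddU g) (JG J g)‖ ≤ e')
    (h1 : ∀ ω, |∑ T, cc J Z η T * walsh T ω| ≤ b₁) (hb : 0 ≤ b)
    (h2 : ∀ U, Odd #U → ∀ ω, |∑ T, kap J Z ν T U * walsh T ω| ≤ b)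
    (h3 : ∀ A, |beta J Z ν A| ≤ B) :
    SY.VHyp (kap J Z ν) (cc J Z η) b₁ b (B + (2 ^ M) ^ M' * (β₁ * e')) where
  c_even := fun T hT => by
    rw [cc, wc_even Z hZo T hT, _root_.zero_apply]
  κ_even := fun T U hU => by
    rw [kap, nh_even hνo hU, map_zero]
  c_one := fun i => by
    rw [cc, ← hζη i]
    congr 1
    refine avg_congr fun x => ?_
    rw [walsh_singleton]
  κ_one := fun T k => by
    rw [kap, cc]
    congr 1
    rw [nh]
    have h1 : ∀ x : Fin M' → Fin D → ℤˣ, Chi (JG J (bic T {k})) x • wc {k} (ν x) =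
        (fun z : Fin D → ℤˣ => walsh T (fun i => chi (J i) z) • η z) (x k) := by
      intro x
      rw [Chi_bic, hνk]
      simp only [Finset.prod_singleton]
    rw [avg_congr h1]
    exact avg_coord k (fun z : Fin D → ℤˣ => walsh T (fun i => chi (J i) z) • η z)
  c_bd := h1
  κ_bd := fun U ω => by
    rcases Nat.even_or_odd #U with hU | hU
    · have h0 : ∀ T : Finset (Fin M), kap J Z ν T U * walsh T ω = 0 := fun T => by
        rw [kap, nh_even hνo hU, map_zero, zero_mul]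
      rw [Finset.sum_congr rfl fun T _ => h0 T, Finset.sum_const_zero, abs_zero]
      exact hb
    · exact h2 U hU ω
  bd := fun A => by
    have h1 := beta_approx J hZ he' hZo hνo hgen A
    have h3' : ∑ T, ∑ U, kap J Z ν T U * walsh U (fun k => ∏ i ∈ T, A i k) =
        beta J Z ν A -
          (beta J Z ν A - ∑ T, ∑ U, kap J Z ν T U * walsh U (fun k => ∏ i ∈ T, A i k)) := by
      ring
    rw [h3']
    exact (abs_sub _ _).trans (add_le_add (h3 A) h1)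

end

/-- A functional of norm at least `1 / R` takes the value `1` at a vector of norm at most
`2 R`. -/
theorem exists_unit' {X : Type*} [NormedAddCommGroup X] [NormedSpace ℝ X] (φ : X →L[ℝ] ℝ) {R : ℝ}
    (hR : 0 < R) (h : 1 / R ≤ ‖φ‖) : ∃ x : X, ‖x‖ ≤ 2 * R ∧ φ x = 1 := by
  have h1 : 1 / (2 * R) < ‖φ‖ := by
    refine lt_of_lt_of_le ?_ h
    rw [one_div_lt_one_div (by positivity) hR]
    linarith
  obtain ⟨x, hx, hxφ⟩ := ContinuousLinearMap.exists_lt_apply_of_lt_opNorm φ h1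
  have h2 : 0 < ‖φ x‖ := lt_trans (by positivity) hxφ
  have h3 : φ x ≠ 0 := norm_pos_iff.mp h2
  refine ⟨(φ x)⁻¹ • x, ?_, ?_⟩
  · rw [norm_smul, norm_inv]
    calc ‖φ x‖⁻¹ * ‖x‖ ≤ (1 / (2 * R))⁻¹ * 1 := by gcongr
      _ = 2 * R := by rw [one_div, inv_inv, mul_one]
  · rw [map_smul, smul_eq_mul, inv_mul_cancel₀ h3]

section

variable {D M M' : ℕ} {X : Type*} [NormedAddCommGroup X] [NormedSpace ℝ X]

/-- The functions `x ↦ β⁻¹ • ν^x_U`, flattened. -/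
noncomputable def thU (ν : (Fin M' → Fin D → ℤˣ) → (Fin M' → ℤˣ) → (X →L[ℝ] ℝ))
    (B2 : ℝ) (U : Finset (Fin M')) (y : Fin (M' * D) → ℤˣ) : X →L[ℝ] ℝ :=
  B2⁻¹ • wc U (ν ((flat M' D).symm y))

theorem thU_norm {ν : (Fin M' → Fin D → ℤˣ) → (Fin M' → ℤˣ) → (X →L[ℝ] ℝ)} {B2 : ℝ}
    (hB2 : 0 < B2) (hν : ∀ x δ, ‖ν x δ‖ ≤ B2) (U : Finset (Fin M')) (y : Fin (M' * D) → ℤˣ) :
    ‖thU ν B2 U y‖ ≤ 1 := by
  rw [thU, norm_smul, norm_inv, Real.norm_of_nonneg hB2.le]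
  calc B2⁻¹ * ‖wc U (ν ((flat M' D).symm y))‖ ≤ B2⁻¹ * B2 :=
        mul_le_mul_of_nonneg_left (norm_wc_le U _ (hν _)) (by positivity)
    _ = 1 := inv_mul_cancel₀ hB2.ne'

/-- The size of the bad set. -/
theorem bad_le (T : X →L[ℝ] X) {ν : (Fin M' → Fin D → ℤˣ) → (Fin M' → ℤˣ) → (X →L[ℝ] ℝ)}
    {B2 e' : ℝ} (hB2 : 0 < B2) :
    ∃ U : Finset (Fin M'), (#(Finset.univ.filter fun b : Fin M' → Fin D → ℤˣ =>
      ∃ U, e' < ‖nh (fun x δ => (ν x δ).comp T) U b‖) : ℝ) ≤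
      2 ^ M' * cnt T (thU ν B2 U) (e' / B2) := by
  classical
  set B : Finset (Fin M' → Fin D → ℤˣ) := Finset.univ.filter fun b =>
    ∃ U, e' < ‖nh (fun x δ => (ν x δ).comp T) U b‖ with hB
  have hcard : ∀ U : Finset (Fin M'), #(Finset.univ.filter fun b : Fin M' → Fin D → ℤˣ =>
      e' < ‖nh (fun x δ => (ν x δ).comp T) U b‖) ≤ cnt T (thU ν B2 U) (e' / B2) := by
    intro U
    refine Finset.card_le_card_of_injOn (flat M' D) ?_ (flat M' D).injective.injOn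
    intro b hb
    rw [Finset.mem_coe, Finset.mem_filter] at hb ⊢
    refine ⟨Finset.mem_univ _, ?_⟩
    unfold thU
    rw [fc_flat, norm_smul, norm_inv, Real.norm_of_nonneg hB2.le, div_eq_inv_mul]
    exact mul_le_mul_of_nonneg_left hb.2.le (by positivity)
  by_contra hc
  push Not at hc
  have h1 : (#B : ℝ) ≤ ∑ U : Finset (Fin M'), (cnt T (thU ν B2 U) (e' / B2) : ℝ) := by
    have h2 : B ⊆ Finset.univ.biUnion fun U : Finset (Fin M') =>
        Finset.univ.filter fun b : Fin M' → Fin D → ℤˣ =>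
          e' < ‖nh (fun x δ => (ν x δ).comp T) U b‖ := by
      intro b hb
      rw [hB, Finset.mem_filter] at hb
      obtain ⟨U, hU⟩ := hb.2
      rw [Finset.mem_biUnion]
      exact ⟨U, Finset.mem_univ _, Finset.mem_filter.mpr ⟨Finset.mem_univ _, hU⟩⟩
    have h3 : #B ≤ ∑ U : Finset (Fin M'), cnt T (thU ν B2 U) (e' / B2) :=
      ((Finset.card_le_card h2).trans Finset.card_biUnion_le).trans
        (Finset.sum_le_sum fun U _ => hcard U)
    exact_mod_cast h3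
  have h4 : ∑ _U : Finset (Fin M'), (#B : ℝ) = 2 ^ M' * #B := by
    rw [Finset.sum_const, nsmul_eq_mul, Finset.card_univ, Fintype.card_finset, Fintype.card_fin]
    push_cast
    ring
  have h5 : ∑ U : Finset (Fin M'), 2 ^ M' * (cnt T (thU ν B2 U) (e' / B2) : ℝ) <
      ∑ _U : Finset (Fin M'), (#B : ℝ) :=
    Finset.sum_lt_sum_of_nonempty Finset.univ_nonempty fun U _ => hc U
  rw [h4, ← Finset.mul_sum] at h5
  have h6 : (0:ℝ) < 2 ^ M' := by positivity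
  nlinarith

end

/-- A family of bad sets which is too small. -/
theorem exists_good {ι κ : Type*} [DecidableEq ι] [Fintype κ] (BB F1 F3 : Finset ι)
    (F2 : κ → Finset ι) (h : #F1 + ∑ U, #(F2 U) + #F3 < #BB) :
    ∃ β ∈ BB, β ∉ F1 ∧ (∀ U, β ∉ F2 U) ∧ β ∉ F3 := by
  classical
  by_contra hcon
  push Not at hcon
  have hsub : BB ⊆ (F1 ∪ Finset.univ.biUnion F2) ∪ F3 := by
    intro β hβ
    by_cases h1 : β ∈ F1
    · simp [h1]
    by_cases h2 : ∀ U, β ∉ F2 U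
    · simp [hcon β hβ h1 h2]
    · push Not at h2
      obtain ⟨U, hU⟩ := h2
      simp only [Finset.mem_union, Finset.mem_biUnion, Finset.mem_univ, true_and]
      exact Or.inl (Or.inr ⟨U, hU⟩)
  have h1 := Finset.card_le_card hsub
  have h2 := Finset.card_union_le (F1 ∪ Finset.univ.biUnion F2) F3
  have h3 := Finset.card_union_le F1 (Finset.univ.biUnion F2)
  have h4 : #(Finset.univ.biUnion F2) ≤ ∑ U, #(F2 U) := Finset.card_biUnion_le
  omega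

/-- **The scale free step.** -/
theorem step_of_fibres (hfib : ∀ M M' : ℕ, ∃ L : ℝ, 1 ≤ L ∧ Fibres M M' L) (q r C : ℝ)
    (hq : 2 ≤ q) (hr : 2 ≤ r) (hC : 1 ≤ C) :
    ∃ C₀ K₀ : ℝ, 1 ≤ C₀ ∧ 1 ≤ K₀ ∧ ∀ (X : Type*) [NormedAddCommGroup X] [NormedSpace ℝ X]
      (T : X →L[ℝ] X), CotypeWith q C X → CotypeWith r C (X →L[ℝ] ℝ) → ‖T‖ ≤ C →
      ∀ R n₁ : ℝ, 0 < R → 0 ≤ n₁ → CB T (2 / R) n₁ →
      ∀ (D : ℕ) (θ : (Fin D → ℤˣ) → (X →L[ℝ] ℝ)), (∀ x, ‖θ x‖ ≤ 1) →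
      C₀ * (1 + R) * (1 + n₁) ≤ cnt T θ (1 / R) →
      ∃ (D' : ℕ) (θ' : (Fin D' → ℤˣ) → (X →L[ℝ] ℝ)), (∀ x, ‖θ' x‖ ≤ 1) ∧
        (cnt T θ (1 / R) : ℝ) ^ 2 ≤ C₀ * cnt T θ' (1 / (K₀ * R)) := by
  classical
  obtain ⟨M, M', hM, hM', hcore⟩ := SY.vcore' q r (24 * C) hq hr (by linarith)
  obtain ⟨L₀, hL₀1, hL₀⟩ := hfib M M'
  have hC0 : 0 < C := by linarith
  obtain ⟨a, ha⟩ : ∃ a : ℝ, a = (M : ℝ) ^ (1 - 1 / r) := ⟨_, rfl⟩
  obtain ⟨a', ha'⟩ : ∃ a' : ℝ, a' = (M' : ℝ) ^ (1 - 1 / q) := ⟨_, rfl⟩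
  have ha1 : 1 ≤ a := by rw [ha]; exact SY.rpow_ge_one hM hr
  have ha1' : 1 ≤ a' := by rw [ha']; exact SY.rpow_ge_one hM' hq
  rw [← ha, ← ha'] at hcore
  obtain ⟨B1, hB1⟩ : ∃ B1 : ℝ, B1 = 6 * C * a := ⟨_, rfl⟩
  obtain ⟨B2, hB2⟩ : ∃ B2 : ℝ, B2 = 3 * C * a' := ⟨_, rfl⟩
  obtain ⟨E, hE⟩ : ∃ E : ℝ, E = ((2 : ℝ) ^ M) ^ M' := ⟨_, rfl⟩
  obtain ⟨G, hG⟩ : ∃ G : ℝ, G = (2 + 2 ^ M') * E * C := ⟨_, rfl⟩
  have hB10 : 0 < B1 := by rw [hB1]; positivity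
  have hB20 : 0 < B2 := by rw [hB2]; positivity
  have hB21 : 1 ≤ B2 := by rw [hB2]; nlinarith
  have hE1 : 1 ≤ E := by rw [hE]; exact one_le_pow₀ (one_le_pow₀ (by norm_num))
  have hE0 : 0 < E := by linarith
  have h2M' : (1:ℝ) ≤ 2 ^ M' := one_le_pow₀ (by norm_num)
  have hEC : 1 ≤ E * C := one_le_mul_of_one_le_of_one_le hE1 hC
  have hG1 : 2 ^ M' ≤ G := by
    rw [hG, mul_assoc]
    nlinarith
  have hG1' : 1 ≤ G := h2M'.trans hG1
  have hL₀0 : 0 < L₀ := by linarith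
  refine ⟨L₀ * G, E * B2, one_le_mul_of_one_le_of_one_le hL₀1 hG1',
    one_le_mul_of_one_le_of_one_le hE1 hB21, ?_⟩
  intro X _ _ T hX hX' hT R n₁ hR hn₁ hCB D θ hθ hbig
  obtain ⟨Λ, hΛ⟩ : ∃ Λ : Finset (Fin D → ℤˣ), Λ = Finset.univ.filter fun b =>
    1 / R ≤ ‖fc T θ b‖ := ⟨_, rfl⟩
  have hcnt : cnt T θ (1 / R) = #Λ := by rw [cnt, hΛ]
  rw [hcnt] at hbig ⊢
  -- the lifts in the second variable
  have hlift : ∀ x : Fin M' → Fin D → ℤˣ, ∃ ν : (Fin M' → ℤˣ) → (X →L[ℝ] ℝ),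
      (∀ δ, ‖ν δ‖ ≤ 3 * C * 1 * (M' : ℝ) ^ (1 - 1 / q)) ∧ (∀ δ, ν (-δ) = - ν δ) ∧
      ∀ k, wc {k} ν = θ (x k) := fun x =>
    lift_sup hq hC0.le zero_le_one hX (fun k => θ (x k)) (fun k => hθ (x k))
  choose ν hν hνo hνk using hlift
  simp only [mul_one] at hν
  rw [← ha', ← hB2] at hν
  obtain ⟨e', he'⟩ : ∃ e' : ℝ, e' = E⁻¹ / R := ⟨_, rfl⟩
  have he'0 : 0 < e' := by rw [he']; positivity
  obtain ⟨Bad, hBad⟩ : ∃ Bad : Finset (Fin M' → Fin D → ℤˣ), Bad = Finset.univ.filter fun b =>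
    ∃ U, e' < ‖nh (fun x δ => (ν x δ).comp T) U b‖ := ⟨_, rfl⟩
  by_cases hcase : L₀ * #Bad < (#Λ : ℝ) ^ 2
  swap
  · -- the bad set is large
    rw [not_lt] at hcase
    obtain ⟨U, hU⟩ := bad_le (e' := e') T (ν := ν) hB20
    refine ⟨M' * D, thU ν B2 U, thU_norm hB20 hν U, ?_⟩
    have h1 : e' / B2 = 1 / (E * B2 * R) := by
      rw [he']
      field_simp
    rw [← hBad, h1] at hU
    calc (#Λ : ℝ) ^ 2 ≤ L₀ * #Bad := hcase
      _ ≤ L₀ * (2 ^ M' * cnt T (thU ν B2 U) (1 / (E * B2 * R))) :=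
          mul_le_mul_of_nonneg_left hU hL₀0.le
      _ ≤ L₀ * (G * cnt T (thU ν B2 U) (1 / (E * B2 * R))) := by
          refine mul_le_mul_of_nonneg_left ?_ hL₀0.le
          exact mul_le_mul_of_nonneg_right hG1 (Nat.cast_nonneg _)
      _ = _ := by ring
  exfalso
  have hLΛ : L₀ ≤ #Λ := by
    refine le_trans ?_ hbig
    have h1 : L₀ ≤ L₀ * G := le_mul_of_one_le_right hL₀0.le hG1'
    have h2 : L₀ * G ≤ L₀ * G * (1 + R) := le_mul_of_one_le_right (by positivity) (by linarith)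
    have h3 : L₀ * G * (1 + R) ≤ L₀ * G * (1 + R) * (1 + n₁) :=
      le_mul_of_one_le_right (by positivity) (by linarith)
    linarith
  obtain ⟨i, p, BB, J, hBB, hJ⟩ := hL₀ D Λ Bad hLΛ hcase
  -- the vectors
  have hvec : ∀ β : Fin i → ℤˣ, ∃ e : Fin M → X, (∀ a, ‖e a‖ ≤ 2 * R) ∧
      (β ∈ BB → ∀ a, fc T θ (J β a) (e a) = 1) := by
    intro β
    by_cases hβ : β ∈ BB
    · have h1 : ∀ a, ∃ x : X, ‖x‖ ≤ 2 * R ∧ fc T θ (J β a) x = 1 := fun a => by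
        have h2 := (hJ β hβ).1 a
        rw [hΛ, Finset.mem_filter] at h2
        exact exists_unit' _ hR h2.2
      choose e he1 he2 using h1
      exact ⟨e, he1, fun _ => he2⟩
    · exact ⟨fun _ => 0, fun _ => by rw [norm_zero]; positivity, fun h => absurd h hβ⟩
  choose e he1 he2 using hvec
  have hlift2 : ∀ β : Fin i → ℤˣ, ∃ Z : (Fin M → ℤˣ) → ((X →L[ℝ] ℝ) →L[ℝ] ℝ),
      (∀ ε, ‖Z ε‖ ≤ 3 * C * (2 * R) * (M : ℝ) ^ (1 - 1 / r)) ∧ (∀ ε, Z (-ε) = - Z ε) ∧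
      ∀ a, wc {a} Z = NormedSpace.inclusionInDoubleDual ℝ X (e β a) := fun β =>
    lift_sup hr hC0.le (by positivity : 0 ≤ 2 * R) hX'
      (fun a => NormedSpace.inclusionInDoubleDual ℝ X (e β a)) (fun a =>
        (NormedSpace.double_dual_bound ℝ X (e β a)).trans (he1 β a))
  choose Z hZ hZo hZk using hlift2
  have hB1R : 3 * C * (2 * R) * (M : ℝ) ^ (1 - 1 / r) = R * B1 := by
    rw [hB1, ha]; ring
  simp only [hB1R] at hZ
  have hRB1 : 0 < R * B1 := by positivity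
  -- the three exceptional sets
  have hJp : ∀ β ∈ BB, ∀ a l, chi (J β a) (p l) = β l := fun β hβ => (hJ β hβ).2.1
  have hJi : ∀ β ∈ BB, ∀ S : Finset (Fin M), S.Nonempty → JT (J β) S ≠ 1 :=
    fun β hβ => (hJ β hβ).2.2.1
  have E1 := ext1 hT hR hCB hθ hJp hRB1 hZ hZo
  have E2 := fun (U : Finset (Fin M')) (hU : Odd #U) =>
    ext2 hT hR hCB hB20 hν hJp hRB1 hZ hZo U hU
  have E3 := ext3 hT hR hCB hB20 hν hJp hJi hRB1 hZ hZo
  obtain ⟨F1, hF1⟩ : ∃ F1 : Finset (Fin i → ℤˣ), F1 = BB.filter fun β => ∃ ω,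
    4 * (R * B1) / R < |∑ S, cc (J β) (Z β) (fun x => (θ x).comp T) S * walsh S ω| := ⟨_, rfl⟩
  obtain ⟨F3, hF3⟩ : ∃ F3 : Finset (Fin i → ℤˣ), F3 = BB.filter fun β => ∃ A,
    4 * (R * B1 * B2) / R < |beta (J β) (Z β) (fun x δ => (ν x δ).comp T) A| := ⟨_, rfl⟩
  obtain ⟨F2, hF2⟩ : ∃ F2 : Finset (Fin M') → Finset (Fin i → ℤˣ), F2 = fun U =>
    if Odd #U then BB.filter fun β => ∃ ω,
      4 * (R * B1 * B2) / R <
        |∑ S, kap (J β) (Z β) (fun x δ => (ν x δ).comp T) S U * walsh S ω|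
    else ∅ := ⟨_, rfl⟩
  rw [← hF1] at E1
  rw [← hF3] at E3
  have E2' : ∀ U, (#(F2 U) : ℝ) ≤ R / 2 * (C * n₁) := by
    intro U
    rw [hF2]
    by_cases hU : Odd #U
    · simp only [if_pos hU]
      exact E2 U hU
    · simp only [if_neg hU, Finset.card_empty, Nat.cast_zero]
      positivity
  have hsum : #F1 + ∑ U, #(F2 U) + #F3 < #BB := by
    have h1 : (#F1 : ℝ) + ∑ U, (#(F2 U) : ℝ) + (#F3 : ℝ) ≤
        R / 2 * (C * n₁) + 2 ^ M' * (R / 2 * (C * n₁)) + R / 2 * (E * (C * n₁)) := by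
      refine add_le_add (add_le_add E1 ?_) ?_
      · calc ∑ U, (#(F2 U) : ℝ) ≤ ∑ _U : Finset (Fin M'), R / 2 * (C * n₁) :=
              Finset.sum_le_sum fun U _ => E2' U
          _ = 2 ^ M' * (R / 2 * (C * n₁)) := by
              rw [Finset.sum_const, nsmul_eq_mul, Finset.card_univ, Fintype.card_finset,
                Fintype.card_fin]
              push_cast
              ring
      · rw [hE]
        exact E3
    have h2 : R / 2 * (C * n₁) + 2 ^ M' * (R / 2 * (C * n₁)) + R / 2 * (E * (C * n₁)) ≤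
        G * (R * n₁) := by
      have h3 : 1 + 2 ^ M' + E ≤ (2 + 2 ^ M') * E := by nlinarith
      have h4 : 0 ≤ C * (R * n₁) := by positivity
      have h5 : (1 + 2 ^ M' + E) * (C * (R * n₁)) ≤ (2 + 2 ^ M') * E * (C * (R * n₁)) :=
        mul_le_mul_of_nonneg_right h3 h4
      have h6 : 0 ≤ (1 + 2 ^ M' + E) * (C * (R * n₁)) := by positivity
      calc R / 2 * (C * n₁) + 2 ^ M' * (R / 2 * (C * n₁)) + R / 2 * (E * (C * n₁))
          = (1 / 2) * ((1 + 2 ^ M' + E) * (C * (R * n₁))) := by ring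
        _ ≤ (1 + 2 ^ M' + E) * (C * (R * n₁)) := by linarith
        _ ≤ (2 + 2 ^ M') * E * (C * (R * n₁)) := h5
        _ = G * (R * n₁) := by rw [hG]; ring
    have h3 : G * (R * n₁) < #BB := by
      have h4 : L₀ * (G * (1 + R) * (1 + n₁)) ≤ L₀ * #BB := by
        calc L₀ * (G * (1 + R) * (1 + n₁)) = L₀ * G * (1 + R) * (1 + n₁) := by ring
          _ ≤ #Λ := hbig
          _ ≤ L₀ * #BB := hBB
      have h5 : G * (1 + R) * (1 + n₁) ≤ #BB := le_of_mul_le_mul_left h4 hL₀0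
      have h6 : 0 ≤ G * R := by positivity
      have h7 : 0 ≤ G * n₁ := by positivity
      nlinarith
    have h4 : ((#F1 + ∑ U, #(F2 U) + #F3 : ℕ) : ℝ) < #BB := by
      push_cast
      linarith
    exact_mod_cast h4
  obtain ⟨β, hβ, hβ1, hβ2, hβ3⟩ := exists_good BB F1 F3 F2 hsum
  have hRR : ∀ t : ℝ, 4 * (R * t) / R = 4 * t := fun t => by field_simp
  have K1 : ∀ ω, |∑ S, cc (J β) (Z β) (fun x => (θ x).comp T) S * walsh S ω| ≤ 4 * B1 := by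
    intro ω
    by_contra hlt
    rw [not_le] at hlt
    refine hβ1 ?_
    rw [hF1, Finset.mem_filter, hRR]
    exact ⟨hβ, ω, hlt⟩
  have K2 : ∀ U, Odd #U → ∀ ω,
      |∑ S, kap (J β) (Z β) (fun x δ => (ν x δ).comp T) S U * walsh S ω| ≤ 4 * (B1 * B2) := by
    intro U hU ω
    by_contra hlt
    rw [not_le] at hlt
    refine hβ2 U ?_
    rw [hF2]
    simp only [if_pos hU]
    rw [Finset.mem_filter, mul_assoc R B1 B2, hRR]
    exact ⟨hβ, ω, hlt⟩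
  have K3 : ∀ A, |beta (J β) (Z β) (fun x δ => (ν x δ).comp T) A| ≤ 4 * (B1 * B2) := by
    intro A
    by_contra hlt
    rw [not_le] at hlt
    refine hβ3 ?_
    rw [hF3, Finset.mem_filter, mul_assoc R B1 B2, hRR]
    exact ⟨hβ, A, hlt⟩
  have hνo' : ∀ (x : Fin M' → Fin D → ℤˣ) (δ : Fin M' → ℤˣ),
      (ν x (-δ)).comp T = -((ν x δ).comp T) := by
    intro x δ
    rw [hνo]
    rfl
  have hνk' : ∀ (x : Fin M' → Fin D → ℤˣ) (k : Fin M'),
      wc {k} (fun δ => (ν x δ).comp T) = (θ (x k)).comp T := by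
    intro x k
    rw [wc_comp, hνk]
  have hζη : ∀ a, (wc {a} (Z β)) (avg fun x : Fin D → ℤˣ =>
      sg (chi (J β a) x) • (θ x).comp T) = 1 := by
    intro a
    rw [hZk β a]
    exact he2 β hβ a
  have hgen : ∀ g : Fin M' → Finset (Fin M), Two g →
      ‖nh (fun x δ => (ν x δ).comp T) (oddU g) (JG (J β) g)‖ ≤ e' := by
    intro g hg
    have h1 := (hJ β hβ).2.2.2 g hg
    rw [hBad, Finset.mem_filter, not_and] at h1
    have h2 := h1 (Finset.mem_univ _)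
    push Not at h2
    exact h2 (oddU g)
  have hyp := vhyp' (ν := fun x δ => (ν x δ).comp T) (η := fun x => (θ x).comp T) hζη (hZ β)
    he'0.le (hZo β) hνo' hνk' hgen K1 (by positivity) K2 K3
  refine hcore _ _ (hyp.mono ?_ ?_ ?_)
  · rw [hB1]
    linarith
  · have h1 : 4 * (B1 * B2) = 72 * (C ^ 2 * (a * a')) := by rw [hB1, hB2]; ring
    have h2 : 24 * C * a * (24 * C * a') = 576 * (C ^ 2 * (a * a')) := by ring
    rw [h1, h2]
    have : 0 ≤ C ^ 2 * (a * a') := by positivity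
    linarith
  · have h0 : ((2:ℝ) ^ M) ^ M' * (R * B1 * e') = B1 := by
      rw [← hE, he']
      field_simp
    rw [h0]
    have h1 : 4 * (B1 * B2) + B1 = 72 * (C ^ 2 * (a * a')) + 6 * (C * a) := by
      rw [hB1, hB2]; ring
    have h2 : 24 * C * a * (24 * C * a') = 576 * (C ^ 2 * (a * a')) := by ring
    rw [h1, h2]
    have h3 : C * a ≤ C ^ 2 * (a * a') := by
      have h4 : C * a * 1 ≤ C * a * (C * a') :=
        mul_le_mul_of_nonneg_left (one_le_mul_of_one_le_of_one_le hC ha1') (by positivity)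
      calc C * a = C * a * 1 := (mul_one _).symm
        _ ≤ C * a * (C * a') := h4
        _ = C ^ 2 * (a * a') := by ring
    have : 0 ≤ C ^ 2 * (a * a') := by positivity
    linarith

end Vale.Agent.P111.SF
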